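import Vale.Agent.H12.Flat.Core

open Complex

namespace Vale.Agent.H12.Flat

theorem approx_sym {f : ℝ → ℝ} (hf : Continuous f) (h01 : f 0 = f 1) {ε : ℝ} (hε : 0 < ε) :
    ∃ (s : Finset ℤ) (b : ℤ → ℂ), ∀ x : ℝ, ‖sym s b x - (f (Int.fract x) : ℝ)‖ ≤ ε := by
  have hcont : Continuous (AddCircle.liftIco (1 : ℝ) 0 (fun x : ℝ => ((f x : ℝ) : ℂ))) := by
    apply AddCircle.liftIco_zero_continuous
    · rw [h01]
    · fun_prop
  set F : C(AddCircle (1 : ℝ), ℂ) := ⟨_, hcont⟩ with hF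
  have hmem : F ∈ (Submodule.span ℂ (Set.range (fourier (T := (1 : ℝ))))).topologicalClosure := by
    rw [span_fourier_closure_eq_top]; trivial
  have hmem2 : F ∈ closure ((Submodule.span ℂ (Set.range (fourier (T := (1 : ℝ)))) :
      Set C(AddCircle (1 : ℝ), ℂ))) := hmem
  obtain ⟨G, hG, hdist⟩ := Metric.mem_closure_iff.mp hmem2 ε hε
  obtain ⟨b, hb⟩ := Finsupp.mem_span_range_iff_exists_finsupp.mp hG
  refine ⟨b.support, b, fun x => ?_⟩
  have h1 : sym b.support b x = G (x : AddCircle (1 : ℝ)) := by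
    rw [← hb, Finsupp.sum, ContinuousMap.sum_apply]
    unfold sym
    refine Finset.sum_congr rfl fun m _ => ?_
    rw [ContinuousMap.smul_apply, fourier_coe_apply, smul_eq_mul]
    congr 2
    push_cast
    ring
  have h2 : ((f (Int.fract x) : ℝ) : ℂ) = F (x : AddCircle (1 : ℝ)) := by
    have e : (x : AddCircle (1 : ℝ)) = ((Int.fract x : ℝ) : AddCircle (1 : ℝ)) := by
      rw [← sub_eq_zero, ← AddCircle.coe_sub, AddCircle.coe_eq_zero_iff]
      exact ⟨⌊x⌋, by rw [Int.self_sub_fract]; simp⟩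
    rw [e, hF]
    show _ = AddCircle.liftIco (1 : ℝ) 0 (fun x : ℝ => ((f x : ℝ) : ℂ)) ((Int.fract x : ℝ) : AddCircle (1 : ℝ))
    rw [AddCircle.liftIco_zero_coe_apply]
    exact ⟨Int.fract_nonneg x, Int.fract_lt_one x⟩
  rw [h1, h2, ← dist_eq_norm, dist_comm]
  exact (ContinuousMap.dist_apply_le_dist _).trans hdist.le

/-- plateau function on `[α, β]` -/
noncomputable def plateau (α β κ x : ℝ) : ℝ := max 0 (min 1 (min (x - α) (β - x) / κ))

theorem plateau_nonneg (α β κ x : ℝ) : 0 ≤ plateau α β κ x := le_max_left _ _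

theorem plateau_le_one (α β κ x : ℝ) : plateau α β κ x ≤ 1 :=
  max_le zero_le_one (min_le_left _ _)

theorem plateau_continuous (α β κ : ℝ) : Continuous (plateau α β κ) := by
  unfold plateau
  fun_prop

theorem plateau_zero {α β κ x : ℝ} (hκ : 0 < κ) (h : x ≤ α ∨ β ≤ x) : plateau α β κ x = 0 := by
  unfold plateau
  apply max_eq_left
  refine (min_le_right _ _).trans ?_
  apply div_nonpos_of_nonpos_of_nonneg _ hκ.le
  rcases h with h | h
  · exact (min_le_left _ _).trans (by linarith)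
  · exact (min_le_right _ _).trans (by linarith)

theorem plateau_one {α β κ x : ℝ} (hκ : 0 < κ) (h1 : α + κ ≤ x) (h2 : x ≤ β - κ) :
    plateau α β κ x = 1 := by
  unfold plateau
  have : (1 : ℝ) ≤ min (x - α) (β - x) / κ := by
    rw [le_div_iff₀ hκ, one_mul]
    exact le_min (by linarith) (by linarith)
  rw [min_eq_left this]
  exact max_eq_right zero_le_one

theorem approx_plateau {α β κ : ℝ} (hα : 0 ≤ α) (hβ : β ≤ 1) (hκ : 0 < κ) {ε : ℝ} (hε : 0 < ε) :
    ∃ (s : Finset ℤ) (b : ℤ → ℂ), ∀ x : ℝ,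
      ‖sym s b x - ((fun x => plateau α β κ (Int.fract x)) x : ℝ)‖ ≤ ε := by
  refine approx_sym (plateau_continuous α β κ) ?_ hε
  rw [plateau_zero hκ (Or.inl hα), plateau_zero hκ (Or.inr hβ)]

end Vale.Agent.H12.Flat
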