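import Mathlib

namespace Vale.Agent.H12.Flat

/-- size of a Hamming ball -/
theorem hamming_ball (N : ℕ) (e₀ : Fin N → Bool) {x : ℝ} (hx0 : 0 < x) (hx1 : x ≤ 1) 
    (S : Finset (Fin N → Bool))
    (hS : ∀ e ∈ S, ((Finset.univ.filter fun i => e i ≠ e₀ i).card : ℝ) ≤ x ^ 2 * N) :
    (S.card : ℝ) ≤ Real.exp (2 * x * N) := by
  classical
  have hsum : ∑ e : Fin N → Bool, ∏ i, (if e i = e₀ i then (1 : ℝ) else x) = (1 + x) ^ N := by
    have h := Finset.prod_univ_sum (fun _ : Fin N => (Finset.univ : Finset Bool))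
      (fun i b => if b = e₀ i then (1 : ℝ) else x)
    rw [Fintype.piFinset_univ] at h
    rw [← h]
    have : ∀ i : Fin N, ∑ b : Bool, (if b = e₀ i then (1 : ℝ) else x) = 1 + x := by
      intro i
      cases e₀ i <;> simp [add_comm]
    simp_rw [this]
    simp
  have hlog : Real.log x ≤ 0 := Real.log_nonpos hx0.le hx1
  have hlogx : -(x * Real.log x) ≤ 1 := by
    have h1 := Real.log_le_sub_one_of_pos (inv_pos.mpr hx0)
    rw [Real.log_inv] at h1
    have h2 : x * x⁻¹ = 1 := mul_inv_cancel₀ hx0.ne'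
    nlinarith
  have hterm : ∀ e ∈ S, Real.exp (-(x * N)) ≤ ∏ i, (if e i = e₀ i then (1 : ℝ) else x) := by
    intro e he
    have h1 : ∏ i, (if e i = e₀ i then (1 : ℝ) else x) =
        x ^ (Finset.univ.filter fun i => e i ≠ e₀ i).card := by
      rw [Finset.prod_ite]
      simp
    rw [h1]
    have h2 : x ^ (Finset.univ.filter fun i => e i ≠ e₀ i).card =
        Real.exp ((Finset.univ.filter fun i => e i ≠ e₀ i).card * Real.log x) := by
      rw [Real.exp_nat_mul, Real.exp_log hx0]
    rw [h2]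
    apply Real.exp_le_exp.mpr
    have h3 := hS e he
    have h4 : x ^ 2 * N * Real.log x ≤ (Finset.univ.filter fun i => e i ≠ e₀ i).card * Real.log x :=
      mul_le_mul_of_nonpos_right h3 hlog
    refine le_trans ?_ h4
    have h5 : x ^ 2 * N * Real.log x = (x * N) * (x * Real.log x) := by ring
    rw [h5]
    have h6 : 0 ≤ x * N := by positivity
    nlinarith
  have h1 : (S.card : ℝ) * Real.exp (-(x * N)) ≤ (1 + x) ^ N := by
    rw [← hsum, ← nsmul_eq_mul, ← Finset.sum_const]
    refine (Finset.sum_le_sum hterm).trans ?_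
    apply Finset.sum_le_sum_of_subset_of_nonneg (Finset.subset_univ _)
    intro e _ _
    apply Finset.prod_nonneg
    intro i _
    split_ifs
    · exact zero_le_one
    · exact hx0.le
  have h2 : (1 + x) ^ N ≤ Real.exp (x * N) := by
    rw [mul_comm, Real.exp_nat_mul]
    apply pow_le_pow_left₀ (by positivity)
    rw [add_comm]
    exact Real.add_one_le_exp x
  have h3 : (S.card : ℝ) * Real.exp (-(x * N)) ≤ Real.exp (x * N) := h1.trans h2
  calc (S.card : ℝ) = (S.card : ℝ) * Real.exp (-(x * N)) * Real.exp (x * N) := by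
        rw [mul_assoc, ← Real.exp_add]; simp
    _ ≤ Real.exp (x * N) * Real.exp (x * N) := by gcongr
    _ = Real.exp (2 * x * N) := by rw [← Real.exp_add]; congr 1; ring

end Vale.Agent.H12.Flat
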