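import Vale.Agent.H12.Flat.Global

open Complex Polynomial MeasureTheory intervalIntegral

namespace Vale.Agent.H12.Flat

theorem pol_eval_trig (a : ℕ → ℂ) (N : ℕ) (θ : ℝ) : (pol a N).eval (exp (I * θ)) = trig a N θ := by
  rw [pol_eval]; rfl

/-- the symbol -/
noncomputable def sym (s : Finset ℤ) (b : ℤ → ℂ) (x : ℝ) : ℂ :=
  ∑ m ∈ s, b m * exp (I * ((x * (2 * Real.pi * m) : ℝ)))

theorem mult_eq (s : Finset ℤ) (b : ℤ → ℂ) (a : ℕ → ℂ) {N : ℕ} (hN : 1 ≤ N) (θ : ℝ) :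
    trig (fun k => sym s b ((k : ℝ) / N) * a k) N θ =
      ∑ m ∈ s, b m * (pol a N).eval (exp (I * θ) * exp (I * ((2 * Real.pi * m : ℝ)) / N)) := by
  have hN0 : (N : ℂ) ≠ 0 := by exact_mod_cast (by omega : N ≠ 0)
  unfold trig sym
  simp_rw [pol_eval, Finset.sum_mul, Finset.mul_sum]
  rw [Finset.sum_comm]
  refine Finset.sum_congr rfl fun m _ => Finset.sum_congr rfl fun k _ => ?_
  rw [mul_pow, ← Complex.exp_nat_mul (I * ((2 * Real.pi * m : ℝ)) / N) k]
  have : (k : ℂ) * (I * ((2 * Real.pi * m : ℝ)) / N) =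
      I * (((k : ℝ) / N * (2 * Real.pi * m) : ℝ)) := by
    push_cast
    field_simp
  rw [this]
  ring

theorem pointwise_real {q τ : ℝ} (hτ : 0 ≤ τ) :
    4 * (q * τ) - 2 * τ - τ ^ 2 ≤ q ^ 4 := by
  nlinarith [sq_nonneg (q ^ 2 - τ), mul_nonneg hτ (sq_nonneg (q - 1))]

theorem pointwise_complex {P U V : ℂ} {N r c ε y : ℝ} (hr0 : 0 < r) (hr2 : r ^ 2 = N)
    (hc0 : 0 ≤ c) (hcε : c ≤ ε) (hc4 : c ≤ 1 / 4) (hy0 : 0 ≤ y) (hy1 : y ≤ 1)
    (hl : (1 - c) * r ≤ ‖P‖) (hup : ‖P‖ ≤ (1 + c) * r) (hE : ‖U - y * P‖ ≤ 3 * ε * r) :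
    N * (4 * (V * starRingEnd ℂ U).re - 2 * (U * starRingEnd ℂ P).re -
      (U * starRingEnd ℂ U).re) - 24 * ε * N ^ 2 ≤ ‖V‖ ^ 4 := by
  have hN0 : 0 < N := by rw [← hr2]; positivity
  have hPn : ‖P‖ ≤ 2 * r := by nlinarith
  set E := U - y * P with hEdef
  have hUE : U = y * P + E := by rw [hEdef]; ring
  have hε0 : 0 ≤ ε := hc0.trans hcε
  have hUn : ‖U‖ ≤ (y + 4 * ε) * r := by
    rw [hUE]
    calc _ ≤ ‖(y : ℂ) * P‖ + ‖E‖ := norm_add_le _ _
      _ ≤ y * ((1 + c) * r) + 3 * ε * r := by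
        rw [norm_mul, Complex.norm_real, Real.norm_eq_abs, abs_of_nonneg hy0]
        gcongr
      _ = (y + y * c + 3 * ε) * r := by ring
      _ ≤ (y + 4 * ε) * r := by
        apply mul_le_mul_of_nonneg_right _ hr0.le
        nlinarith [mul_nonneg hc0 (sub_nonneg.mpr hy1)]
  have hUP : (y - 8 * ε) * N ≤ (U * starRingEnd ℂ P).re := by
    have e3 : (U * starRingEnd ℂ P).re = y * ‖P‖ ^ 2 + (E * starRingEnd ℂ P).re := by
      rw [hUE, add_mul, Complex.add_re, mul_assoc, Complex.mul_conj, Complex.normSq_eq_norm_sq,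
        ← Complex.ofReal_mul, Complex.ofReal_re]
    have e4 : -(‖E‖ * ‖P‖) ≤ (E * starRingEnd ℂ P).re := by
      have h1 := Complex.abs_re_le_norm (E * starRingEnd ℂ P)
      rw [norm_mul, Complex.norm_conj] at h1
      exact (abs_le.mp h1).1
    have e5 : ‖E‖ * ‖P‖ ≤ (3 * ε * r) * (2 * r) := by gcongr
    have e5' : (3 * ε * r) * (2 * r) = 6 * ε * N := by rw [← hr2]; ring
    have e6 : ((1 - c) * r) ^ 2 ≤ ‖P‖ ^ 2 := by
      apply pow_le_pow_left₀ _ hl
      exact mul_nonneg (by linarith) hr0.le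
    have e7 : y * ((1 - c) * r) ^ 2 ≤ y * ‖P‖ ^ 2 := mul_le_mul_of_nonneg_left e6 hy0
    have e8 : (y - 2 * ε) * N ≤ y * ((1 - c) * r) ^ 2 := by
      rw [mul_pow, hr2]
      have : y - 2 * ε ≤ y * (1 - c) ^ 2 := by
        nlinarith [mul_nonneg hy0 (sq_nonneg c), mul_nonneg hc0 (sub_nonneg.mpr hy1)]
      calc _ ≤ (y * (1 - c) ^ 2) * N := by gcongr
        _ = _ := by ring
    rw [e3]
    linarith
  have hVU : (V * starRingEnd ℂ U).re ≤ ‖V‖ * ‖U‖ := by
    have h1 := Complex.abs_re_le_norm (V * starRingEnd ℂ U)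
    rw [norm_mul, Complex.norm_conj] at h1
    exact (abs_le.mp h1).2
  have hUU : (U * starRingEnd ℂ U).re = ‖U‖ ^ 2 := by
    rw [Complex.mul_conj, Complex.normSq_eq_norm_sq, Complex.ofReal_re]
  rw [hUU]
  have hq := pointwise_real (q := ‖V‖ / r) (τ := ‖U‖ / r) (by positivity)
  have hq' : 4 * (‖V‖ * ‖U‖) * r ^ 2 - 2 * ‖U‖ * r ^ 3 - ‖U‖ ^ 2 * r ^ 2 ≤ ‖V‖ ^ 4 := by
    have := mul_le_mul_of_nonneg_right hq (by positivity : 0 ≤ r ^ 4)
    have e1 : (4 * (‖V‖ / r * (‖U‖ / r)) - 2 * (‖U‖ / r) - (‖U‖ / r) ^ 2) * r ^ 4 =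
        4 * (‖V‖ * ‖U‖) * r ^ 2 - 2 * ‖U‖ * r ^ 3 - ‖U‖ ^ 2 * r ^ 2 := by
      field_simp
    have e2 : (‖V‖ / r) ^ 4 * r ^ 4 = ‖V‖ ^ 4 := by field_simp
    rw [e1, e2] at this
    exact this
  have hUr : ‖U‖ * r ≤ (U * starRingEnd ℂ P).re + 12 * ε * N := by
    have : ‖U‖ * r ≤ (y + 4 * ε) * r * r := by gcongr
    have e : (y + 4 * ε) * r * r = (y + 4 * ε) * N := by rw [← hr2]; ring
    rw [e] at this
    linarith
  have hr3 : ‖U‖ * r ^ 3 = (‖U‖ * r) * N := by rw [← hr2]; ring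
  have hq2 : N * (4 * (‖V‖ * ‖U‖) - 2 * (‖U‖ * r) - ‖U‖ ^ 2) ≤ ‖V‖ ^ 4 := by
    refine le_trans (le_of_eq ?_) hq'
    rw [← hr2]; ring
  refine le_trans ?_ hq2
  have : N * (4 * (V * starRingEnd ℂ U).re - 2 * (U * starRingEnd ℂ P).re - ‖U‖ ^ 2) -
      24 * ε * N ^ 2 = N * (4 * (V * starRingEnd ℂ U).re - 2 * ((U * starRingEnd ℂ P).re +
        12 * ε * N) - ‖U‖ ^ 2) := by ring
  rw [this]
  apply mul_le_mul_of_nonneg_left _ hN0.le
  linarith

/-- the three coefficient sums -/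
theorem coeff_sums {f : ℝ → ℝ} (hf0 : ∀ x, 0 ≤ f x) (hf1 : ∀ x, f x ≤ 1) {s : Finset ℤ}
    {b : ℤ → ℂ} {ε : ℝ} (hε0 : 0 < ε) (hε1 : ε ≤ 1) (hsb : ∀ x : ℝ, ‖sym s b x - f x‖ ≤ ε)
    (N : ℕ) {a : ℕ → ℂ} (ha : ∀ k, ‖a k‖ = 1) (J : ℕ → Prop) [DecidablePred J]
    (hJ : ∀ k < N, ¬ J k → f ((k : ℝ) / N) = 0) :
    (∑ k ∈ Finset.range N, f ((k : ℝ) / N)) - 33 * ε * N ≤
      4 * (∑ k ∈ Finset.range N, (if J k then a k else 0) *
        starRingEnd ℂ (sym s b ((k : ℝ) / N) * a k)).re -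
      2 * (∑ k ∈ Finset.range N, (sym s b ((k : ℝ) / N) * a k) * starRingEnd ℂ (a k)).re -
      (∑ k ∈ Finset.range N, (sym s b ((k : ℝ) / N) * a k) *
        starRingEnd ℂ (sym s b ((k : ℝ) / N) * a k)).re - 24 * ε * N := by
  have hsymk : ∀ k : ℕ, ‖sym s b ((k : ℝ) / N) - f ((k : ℝ) / N)‖ ≤ ε := fun k => hsb _
  have haa : ∀ k, a k * starRingEnd ℂ (a k) = 1 := by
    intro k
    rw [Complex.mul_conj, Complex.normSq_eq_norm_sq, ha k]; simp
  set F : ℝ := ∑ k ∈ Finset.range N, f ((k : ℝ) / N) with hF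
  have s1 : F - ε * N ≤ (∑ k ∈ Finset.range N, (if J k then a k else 0) *
        starRingEnd ℂ (sym s b ((k : ℝ) / N) * a k)).re := by
    rw [Complex.re_sum]
    have : F - ε * N = ∑ k ∈ Finset.range N, (f ((k : ℝ) / N) - ε) := by
      rw [Finset.sum_sub_distrib]; simp [hF, mul_comm]
    rw [this]
    refine Finset.sum_le_sum fun k hk => ?_
    by_cases hJk : J k
    · have e : (if J k then a k else 0) * starRingEnd ℂ (sym s b ((k : ℝ) / N) * a k) =
          starRingEnd ℂ (sym s b ((k : ℝ) / N)) := by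
        rw [if_pos hJk, map_mul]
        calc _ = starRingEnd ℂ (sym s b ((k : ℝ) / N)) * (a k * starRingEnd ℂ (a k)) := by ring
          _ = _ := by rw [haa, mul_one]
      rw [e, Complex.conj_re]
      have h1 := (Complex.abs_re_le_norm _).trans (hsymk k)
      rw [Complex.sub_re, Complex.ofReal_re] at h1
      linarith [(abs_le.mp h1).1]
    · have h0 := hJ k (Finset.mem_range.mp hk) hJk
      rw [if_neg hJk, zero_mul, Complex.zero_re, h0]
      linarith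
  have s2 : (∑ k ∈ Finset.range N, (sym s b ((k : ℝ) / N) * a k) * starRingEnd ℂ (a k)).re ≤
      F + ε * N := by
    rw [Complex.re_sum]
    have : F + ε * N = ∑ k ∈ Finset.range N, (f ((k : ℝ) / N) + ε) := by
      rw [Finset.sum_add_distrib]; simp [hF, mul_comm]
    rw [this]
    refine Finset.sum_le_sum fun k _ => ?_
    have e : (sym s b ((k : ℝ) / N) * a k) * starRingEnd ℂ (a k) = sym s b ((k : ℝ) / N) := by
      rw [mul_assoc, haa, mul_one]
    rw [e]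
    have h1 := (Complex.abs_re_le_norm _).trans (hsymk k)
    rw [Complex.sub_re, Complex.ofReal_re] at h1
    linarith [(abs_le.mp h1).2]
  have s3 : (∑ k ∈ Finset.range N, (sym s b ((k : ℝ) / N) * a k) *
        starRingEnd ℂ (sym s b ((k : ℝ) / N) * a k)).re ≤ F + 3 * ε * N := by
    rw [Complex.re_sum]
    have : F + 3 * ε * N = ∑ k ∈ Finset.range N, (f ((k : ℝ) / N) + 3 * ε) := by
      rw [Finset.sum_add_distrib]; simp [hF]; ring
    rw [this]
    refine Finset.sum_le_sum fun k _ => ?_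
    have e : ((sym s b ((k : ℝ) / N) * a k) *
        starRingEnd ℂ (sym s b ((k : ℝ) / N) * a k)).re = ‖sym s b ((k : ℝ) / N)‖ ^ 2 := by
      rw [Complex.mul_conj, Complex.normSq_eq_norm_sq, Complex.ofReal_re]
      simp only [norm_mul, ha k, mul_one]
    rw [e]
    have h1 := hsymk k
    have h2 : ‖sym s b ((k : ℝ) / N)‖ ≤ f ((k : ℝ) / N) + ε := by
      have := norm_sub_norm_le (sym s b ((k : ℝ) / N)) (f ((k : ℝ) / N))
      rw [Complex.norm_real, Real.norm_eq_abs, abs_of_nonneg (hf0 _)] at this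
      linarith
    have h3 := hf0 ((k : ℝ) / N)
    have h4 := hf1 ((k : ℝ) / N)
    have h5 := norm_nonneg (sym s b ((k : ℝ) / N))
    nlinarith
  linarith

theorem core {f : ℝ → ℝ} (hf0 : ∀ x, 0 ≤ f x) (hf1 : ∀ x, f x ≤ 1)
    (happ : ∀ ε : ℝ, 0 < ε → ∃ (s : Finset ℤ) (b : ℤ → ℂ), ∀ x : ℝ, ‖sym s b x - f x‖ ≤ ε)
    {δ : ℝ} (hδ : 0 < δ) : ∃ c : ℝ, 0 < c ∧ ∀ N : ℕ, 1 ≤ N → ∀ a : ℕ → ℂ, (∀ k, ‖a k‖ = 1) →
      IsFlat c N a → ∀ J : ℕ → Prop, ∀ [DecidablePred J],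
      (∀ k < N, ¬ J k → f ((k : ℝ) / N) = 0) →
      2 * Real.pi * ((N : ℝ) * (∑ k ∈ Finset.range N, f ((k : ℝ) / N) - δ * N)) ≤
        ∫ θ in (0 : ℝ)..(2 * Real.pi), ‖trig (fun k => if J k then a k else 0) N θ‖ ^ 4 := by
  set ε : ℝ := min 1 (δ / 40) with hε
  have hε0 : 0 < ε := by positivity
  have hε1 : ε ≤ 1 := min_le_left _ _
  have hεδ : ε ≤ δ / 40 := min_le_right _ _
  obtain ⟨s, b, hsb⟩ := happ ε hε0
  set T : ℝ := 1 + 2 * Real.pi * ∑ m ∈ s, |(m : ℝ)| with hT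
  have hT0 : 0 < T := by positivity
  have hTm : ∀ m ∈ s, |2 * Real.pi * (m : ℝ)| ≤ T := by
    intro m hm
    rw [abs_mul, abs_of_pos Real.two_pi_pos]
    have : |(m : ℝ)| ≤ ∑ m ∈ s, |(m : ℝ)| :=
      Finset.single_le_sum (f := fun m : ℤ => |(m : ℝ)|) (fun _ _ => abs_nonneg _) hm
    nlinarith [Real.two_pi_pos]
  set B : ℝ := 1 + ∑ m ∈ s, ‖b m‖ with hB
  have hB0 : 0 < B := by positivity
  have hB1 : 1 ≤ B := by
    have : 0 ≤ ∑ m ∈ s, ‖b m‖ := by positivity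
    linarith
  obtain ⟨c, hc0, hc4, hcη, hloc⟩ := local_freq hT0 (div_pos hε0 hB0)
  have hcε : c ≤ ε := hcη.trans (div_le_self hε0.le hB1)
  refine ⟨c, hc0, fun N hN a ha hflat J _ hJ => ?_⟩
  have hNpos : (0 : ℝ) < N := by exact_mod_cast hN
  set r := √(N : ℝ) with hr
  have hr0 : 0 < r := Real.sqrt_pos.mpr hNpos
  have hr2 : r ^ 2 = N := Real.sq_sqrt hNpos.le
  set u : ℕ → ℂ := fun k => sym s b ((k : ℝ) / N) * a k with hu
  set v : ℕ → ℂ := fun k => if J k then a k else 0 with hv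
  -- pointwise estimate
  have hpt : ∀ θ : ℝ, (N : ℝ) * (4 * (trig v N θ * starRingEnd ℂ (trig u N θ)).re -
      2 * (trig u N θ * starRingEnd ℂ (trig a N θ)).re -
      (trig u N θ * starRingEnd ℂ (trig u N θ)).re) - 24 * ε * (N : ℝ) ^ 2 ≤ ‖trig v N θ‖ ^ 4 := by
    intro θ
    have hz : ‖exp (I * (θ : ℂ))‖ = 1 := by rw [Complex.norm_exp]; simp
    obtain ⟨α, -, hα⟩ := hloc N hN a hflat _ hz
    obtain ⟨hl, hup⟩ := hflat _ hz
    rw [← pol_eval, pol_eval_trig] at hl hup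
    have hU1 : ‖trig u N θ - sym s b α * trig a N θ‖ ≤ ε * r := by
      have e1 : trig u N θ - sym s b α * trig a N θ = ∑ m ∈ s, b m *
          ((pol a N).eval (exp (I * θ) * exp (I * ((2 * Real.pi * m : ℝ)) / N)) -
            exp (I * ((α * (2 * Real.pi * m) : ℝ))) * (pol a N).eval (exp (I * θ))) := by
        rw [hu, mult_eq s b a hN θ, ← pol_eval_trig a, sym, Finset.sum_mul,
          ← Finset.sum_sub_distrib]
        refine Finset.sum_congr rfl fun m _ => ?_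
        ring
      rw [e1]
      calc _ ≤ ∑ m ∈ s, ‖b m‖ * (ε / B * r) := by
            refine (norm_sum_le _ _).trans (Finset.sum_le_sum fun m hm => ?_)
            rw [norm_mul]
            exact mul_le_mul_of_nonneg_left (hα _ (hTm m hm)) (norm_nonneg _)
        _ = (∑ m ∈ s, ‖b m‖) * (ε / B * r) := by rw [Finset.sum_mul]
        _ ≤ B * (ε / B * r) := by
            have : ∑ m ∈ s, ‖b m‖ ≤ B := by rw [hB]; linarith
            gcongr
        _ = ε * r := by field_simp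
    have hPn : ‖trig a N θ‖ ≤ 2 * r := by nlinarith
    have hE : ‖trig u N θ - (f α : ℂ) * trig a N θ‖ ≤ 3 * ε * r := by
      have e2 : trig u N θ - (f α : ℂ) * trig a N θ = (trig u N θ - sym s b α * trig a N θ) +
        (sym s b α - f α) * trig a N θ := by ring
      rw [e2]
      calc _ ≤ ‖trig u N θ - sym s b α * trig a N θ‖ + ‖(sym s b α - f α) * trig a N θ‖ :=
            norm_add_le _ _
        _ ≤ ε * r + ε * (2 * r) := by
          rw [norm_mul]
          have := hsb α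
          gcongr
        _ = 3 * ε * r := by ring
    exact pointwise_complex hr0 hr2 hc0.le hcε hc4 (hf0 α) (hf1 α) hl hup hE
  -- integrate
  have hcv := trig_continuous v N
  have hcu := trig_continuous u N
  have hca := trig_continuous a N
  have hint := intervalIntegral.integral_mono_on (μ := volume) Real.two_pi_pos.le
    (f := fun θ : ℝ => (N : ℝ) * (4 * (trig v N θ * starRingEnd ℂ (trig u N θ)).re -
      2 * (trig u N θ * starRingEnd ℂ (trig a N θ)).re -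
      (trig u N θ * starRingEnd ℂ (trig u N θ)).re) - 24 * ε * (N : ℝ) ^ 2)
    (g := fun θ : ℝ => ‖trig v N θ‖ ^ 4)
    (Continuous.intervalIntegrable (by fun_prop) _ _)
    (Continuous.intervalIntegrable (by fun_prop) _ _) (fun θ _ => hpt θ)
  refine le_trans ?_ hint
  have ii : ∀ x y : ℕ → ℂ, IntervalIntegrable
      (fun θ : ℝ => (trig x N θ * starRingEnd ℂ (trig y N θ)).re) volume 0 (2 * Real.pi) := by
    intro x y
    have h1 := trig_continuous x N
    have h2 := trig_continuous y N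
    exact Continuous.intervalIntegrable (by fun_prop) _ _
  rw [intervalIntegral.integral_sub (((((ii v u).const_mul 4).sub ((ii u a).const_mul 2)).sub (ii u u)).const_mul _)
    (_root_.intervalIntegrable_const), intervalIntegral.integral_const_mul,
    intervalIntegral.integral_sub ((((ii v u).const_mul 4).sub ((ii u a).const_mul 2))) (ii u u),
    intervalIntegral.integral_sub ((ii v u).const_mul 4) ((ii u a).const_mul 2),
    intervalIntegral.integral_const_mul, intervalIntegral.integral_const_mul,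
    intervalIntegral.integral_const, integral_re_trig, integral_re_trig, integral_re_trig]
  have key := coeff_sums hf0 hf1 hε0 hε1 hsb N ha J hJ
  have hpi := Real.two_pi_pos
  simp only [sub_zero, smul_eq_mul]
  have h33 : 33 * ε * N ≤ δ * N := by
    have : 33 * ε ≤ δ := by linarith
    gcongr
  set S1 := (∑ k ∈ Finset.range N, v k * starRingEnd ℂ (u k)).re with hS1
  set S2 := (∑ k ∈ Finset.range N, u k * starRingEnd ℂ (a k)).re with hS2
  set S3 := (∑ k ∈ Finset.range N, u k * starRingEnd ℂ (u k)).re with hS3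
  have key' : (∑ k ∈ Finset.range N, f ((k : ℝ) / N)) - δ * N ≤
      4 * S1 - 2 * S2 - S3 - 24 * ε * N := by
    linarith
  have : (N : ℝ) * (4 * (2 * Real.pi * S1) - 2 * (2 * Real.pi * S2) - 2 * Real.pi * S3) -
      2 * Real.pi * (24 * ε * N ^ 2) = 2 * Real.pi * (N * (4 * S1 - 2 * S2 - S3 - 24 * ε * N)) := by
    ring
  rw [this]
  apply mul_le_mul_of_nonneg_left _ hpi.le
  exact mul_le_mul_of_nonneg_left key' hNpos.le

end Vale.Agent.H12.Flat
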