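import Vale.Agent.H12.Flat.Entropy

open Complex Polynomial

namespace Vale.Agent.H12.Flat

theorem log_le_two_sqrt {y : ℝ} (hy : 0 < y) : Real.log y ≤ 2 * √y := by
  have h1 : Real.log y = 2 * Real.log √y := by
    rw [Real.log_sqrt hy.le]; ring
  have h2 := Real.log_le_sub_one_of_pos (Real.sqrt_pos.mpr hy)
  linarith

theorem exists_T {η C : ℝ} (hη : 0 < η) (hC : 0 < C) : ∃ T : ℝ, 1 ≤ T ∧
    2 * Real.pi / T * Real.log (C * T) ≤ η / 3 := by
  have hpi := Real.pi_pos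
  set A : ℝ := 144 * Real.pi ^ 2 * C / η ^ 2 with hA
  have hA0 : 0 < A := by positivity
  refine ⟨1 + A, by linarith, ?_⟩
  have hT0 : 0 < 1 + A := by linarith
  have h1 : 12 * Real.pi * √(C * (1 + A)) ≤ η * (1 + A) := by
    apply le_of_sq_le_sq _ (by positivity)
    rw [mul_pow, Real.sq_sqrt (by positivity)]
    have h2 : η ^ 2 * A = 144 * Real.pi ^ 2 * C := by rw [hA]; field_simp
    have : (η * (1 + A)) ^ 2 = η ^ 2 * (1 + A) + η ^ 2 * A * (1 + A) := by ring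
    rw [this, h2]
    have : 0 ≤ η ^ 2 * (1 + A) := by positivity
    nlinarith
  have h3 := log_le_two_sqrt (y := C * (1 + A)) (by positivity)
  rw [div_mul_eq_mul_div, div_le_iff₀ hT0]
  nlinarith

/-- the fibres of the coding map are contained in small Hamming balls -/
theorem fibre_bound {η₀ T : ℝ} (hη0 : 0 < η₀) (hη3 : η₀ ≤ 1 / 3) (hT0 : 0 < T) {c : ℝ} 
    {N : ℕ} (hN1 : 1 ≤ N) {al : (Fin N → Bool) → ℕ → ℝ}
    (hal : ∀ (e : Fin N → Bool) (k : ℕ), IsFlat c N (coef e) → |al e k| ≤ 8 ∧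
      ∀ t : ℝ, |t| ≤ T → ‖(pol (coef e) N).eval (exp (I * ((k * T / N : ℝ))) * exp (I * t / N)) -
        exp (I * (al e k * t : ℝ)) * (pol (coef e) N).eval (exp (I * ((k * T / N : ℝ))))‖ ≤ η₀ * √N)
    (hpn : ∀ e : Fin N → Bool, IsFlat c N (coef e) → ∀ k : ℕ,
      ‖(pol (coef e) N).eval (exp (I * ((k * T / N : ℝ))))‖ ≤ 2 * √N)
    (F : Finset (Fin N → Bool)) (hF : ∀ e ∈ F, IsFlat c N (coef e)) (e₀ : Fin N → Bool) (he₀ : e₀ ∈ F)
    (hcode : ∀ e ∈ F, ∀ k < ⌊2 * Real.pi * N / T⌋₊ + 1, ⌊al e k * T / η₀⌋ = ⌊al e₀ k * T / η₀⌋ ∧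
      ⌊((pol (coef e) N).eval (exp (I * ((k * T / N : ℝ))))).re / (η₀ * √N)⌋ =
        ⌊((pol (coef e₀) N).eval (exp (I * ((k * T / N : ℝ))))).re / (η₀ * √N)⌋ ∧
      ⌊((pol (coef e) N).eval (exp (I * ((k * T / N : ℝ))))).im / (η₀ * √N)⌋ =
        ⌊((pol (coef e₀) N).eval (exp (I * ((k * T / N : ℝ))))).im / (η₀ * √N)⌋) :
    (F.card : ℝ) ≤ Real.exp (2 * (3 * η₀) * N) := by
  have hpi := Real.pi_pos
  have hNpos : (0 : ℝ) < N := by exact_mod_cast hN1
  apply hamming_ball N e₀ (by positivity) (by linarith)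
  intro e he
  have hef : IsFlat c N (coef e) := hF e he
  have hef₀ : IsFlat c N (coef e₀) := hF e₀ he₀
  have h4 := hamming_of_close e e₀ (D := 6 * η₀ * √N) ?_
  · have h5 : (6 * η₀ * √(N : ℝ)) ^ 2 = 36 * η₀ ^ 2 * N := by
      rw [mul_pow, Real.sq_sqrt hNpos.le]; ring
    rw [h5] at h4
    nlinarith
  · intro θ hθ
    set k : ℕ := ⌊θ * N / T⌋₊ with hk
    have hk1 : (k : ℝ) ≤ θ * N / T := Nat.floor_le (div_nonneg (mul_nonneg hθ.1 hNpos.le) hT0.le)
    have hk2 : θ * N / T < k + 1 := Nat.lt_floor_add_one _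
    rw [le_div_iff₀ hT0] at hk1
    rw [div_lt_iff₀ hT0] at hk2
    have hkM : k < ⌊2 * Real.pi * N / T⌋₊ + 1 := by
      rw [Nat.lt_add_one_iff, hk]
      apply Nat.floor_le_floor
      have := hθ.2
      gcongr
    have ht : |θ * N - k * T| ≤ T := by
      rw [abs_le]; constructor <;> nlinarith
    have hcc := hcode e he k hkM
    have := close_of_code hT0 hη0 hN1 (hal e k hef).2 (hal e₀ k hef₀).2 (hpn e hef k)
      (floor_eq_abs_sub_lt hcc.1) (floor_eq_abs_sub_lt hcc.2.1) (floor_eq_abs_sub_lt hcc.2.2) ht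
    have hθeq : exp (I * ((k * T / N : ℝ))) * exp (I * ((θ * N - k * T : ℝ)) / N) = exp (I * θ) := by
      rw [← exp_add]
      congr 1
      have : (N : ℂ) ≠ 0 := by exact_mod_cast hNpos.ne'
      push_cast
      field_simp
      ring
    rw [hθeq] at this
    exact this

theorem count_bound {η₀ T : ℝ} (hη0 : 0 < η₀) (hη3 : η₀ ≤ 1 / 3) (hT0 : 0 < T) {c : ℝ}
    (hc4 : c ≤ 1 / 4)
    (hloc : ∀ N : ℕ, 1 ≤ N → ∀ a : ℕ → ℂ, IsFlat c N a → ∀ z₀ : ℂ, ‖z₀‖ = 1 → ∃ α : ℝ, |α| ≤ 8 ∧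
      ∀ t : ℝ, |t| ≤ T →
      ‖(pol a N).eval (z₀ * exp (I * t / N)) - exp (I * (α * t : ℝ)) * (pol a N).eval z₀‖ ≤
        η₀ * √N)
    {N : ℕ} (hN1 : 1 ≤ N) :
    (Nat.card {e : Fin N → Bool // IsFlat c N (coef e)} : ℝ) ≤ Real.exp (2 * (3 * η₀) * N) *
      (((2 * ⌈8 * T / η₀⌉₊ + 1) * ((2 * ⌈2 / η₀⌉₊ + 1) * (2 * ⌈2 / η₀⌉₊ + 1)) : ℕ) : ℝ) ^
        (⌊2 * Real.pi * N / T⌋₊ + 1) := by
  classical
  have hpi := Real.pi_pos
  set H₂ : ℕ := ⌈2 / η₀⌉₊ with hH₂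
  set H₁ : ℕ := ⌈8 * T / η₀⌉₊ with hH₁
  set K : ℕ := (2 * H₁ + 1) * ((2 * H₂ + 1) * (2 * H₂ + 1)) with hK
  have hNpos : (0 : ℝ) < N := by exact_mod_cast hN1
  set r := √(N : ℝ) with hr
  have hr0 : 0 < r := Real.sqrt_pos.mpr hNpos
  set M : ℕ := ⌊2 * Real.pi * N / T⌋₊ + 1 with hM
  have hal : ∀ (e : Fin N → Bool) (k : ℕ), ∃ α : ℝ, IsFlat c N (coef e) → |α| ≤ 8 ∧
      ∀ t : ℝ, |t| ≤ T → ‖(pol (coef e) N).eval (exp (I * ((k * T / N : ℝ))) * exp (I * t / N)) -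
        exp (I * (α * t : ℝ)) * (pol (coef e) N).eval (exp (I * ((k * T / N : ℝ))))‖ ≤ η₀ * r := by
    intro e k
    by_cases h : IsFlat c N (coef e)
    · obtain ⟨α, h1, h2⟩ := hloc N hN1 (coef e) h (exp (I * ((k * T / N : ℝ))))
        (by rw [Complex.norm_exp]; simp)
      exact ⟨α, fun _ => ⟨h1, h2⟩⟩
    · exact ⟨0, fun h' => absurd h' h⟩
  choose al hal using hal
  have hpn : ∀ e : Fin N → Bool, IsFlat c N (coef e) → ∀ k : ℕ,
      ‖(pol (coef e) N).eval (exp (I * ((k * T / N : ℝ))))‖ ≤ 2 * r := by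
    intro e he k
    have := (he (exp (I * ((k * T / N : ℝ)))) (by rw [Complex.norm_exp]; simp)).2
    rw [← pol_eval] at this
    refine this.trans ?_
    have : 1 + c ≤ 2 := by linarith
    gcongr
  set code : (Fin N → Bool) → (Fin M → ℤ × ℤ × ℤ) := fun e k =>
    (⌊al e k * T / η₀⌋, ⌊((pol (coef e) N).eval (exp (I * ((k * T / N : ℝ))))).re / (η₀ * r)⌋,
      ⌊((pol (coef e) N).eval (exp (I * ((k * T / N : ℝ))))).im / (η₀ * r)⌋) with hcode
  set F : Finset (Fin N → Bool) := Finset.univ.filter fun e => IsFlat c N (coef e) with hF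
  set B : Finset (ℤ × ℤ × ℤ) := Finset.Icc (-(H₁ : ℤ)) H₁ ×ˢ
    (Finset.Icc (-(H₂ : ℤ)) H₂ ×ˢ Finset.Icc (-(H₂ : ℤ)) H₂) with hB
  set target : Finset (Fin M → ℤ × ℤ × ℤ) := Fintype.piFinset (fun _ => B) with htarget
  have hmaps : ∀ e ∈ F, code e ∈ target := by
    intro e he
    have he' : IsFlat c N (coef e) := (Finset.mem_filter.mp he).2
    rw [htarget, Fintype.mem_piFinset]
    intro k
    simp only [hcode, hB, Finset.mem_product]
    refine ⟨floor_mem_Icc ?_, floor_mem_Icc ?_, floor_mem_Icc ?_⟩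
    · rw [abs_div, abs_mul, abs_of_pos hT0, abs_of_pos hη0]
      refine le_trans ?_ (Nat.le_ceil _)
      have := (hal e k he').1
      gcongr
    · rw [abs_div, abs_of_pos (by positivity : 0 < η₀ * r)]
      refine le_trans ?_ (Nat.le_ceil _)
      rw [div_le_div_iff₀ (by positivity) hη0]
      have := (Complex.abs_re_le_norm _).trans (hpn e he' k)
      calc _ ≤ (2 * r) * η₀ := by gcongr
        _ = 2 * (η₀ * r) := by ring
    · rw [abs_div, abs_of_pos (by positivity : 0 < η₀ * r)]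
      refine le_trans ?_ (Nat.le_ceil _)
      rw [div_le_div_iff₀ (by positivity) hη0]
      have := (Complex.abs_im_le_norm _).trans (hpn e he' k)
      calc _ ≤ (2 * r) * η₀ := by gcongr
        _ = 2 * (η₀ * r) := by ring
  have hfib : ∀ b ∈ target, (F.filter fun e => code e = b).card ≤ ⌊Real.exp (2 * (3 * η₀) * N)⌋₊ := by
    intro b _
    apply Nat.le_floor
    rcases (F.filter fun e => code e = b).eq_empty_or_nonempty with h0 | ⟨e₀, he₀⟩
    · rw [h0]; simp; positivity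
    · refine fibre_bound hη0 hη3 hT0 hN1 hal hpn _ ?_ e₀ he₀ ?_
      · intro e he
        exact (Finset.mem_filter.mp (Finset.mem_filter.mp he).1).2
      · intro e he k hk
        have hec : code e = code e₀ :=
          (Finset.mem_filter.mp he).2.trans (Finset.mem_filter.mp he₀).2.symm
        have hcc := congrFun hec ⟨k, hk⟩
        simp only [hcode, Prod.mk.injEq] at hcc
        exact hcc
  have hcard := Finset.card_le_mul_card_image_of_maps_to hmaps _ hfib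
  have htc : target.card = K ^ M := by
    rw [htarget, Fintype.card_piFinset]
    simp only [hB, Finset.card_product, Int.card_Icc, Finset.prod_const, Finset.card_univ,
      Fintype.card_fin]
    congr 1
    rw [hK]
    have e1 : ((H₁ : ℤ) + 1 - -(H₁ : ℤ)).toNat = 2 * H₁ + 1 := by omega
    have e2 : ((H₂ : ℤ) + 1 - -(H₂ : ℤ)).toNat = 2 * H₂ + 1 := by omega
    rw [e1, e2]
  have hNc : Nat.card {e : Fin N → Bool // IsFlat c N (coef e)} = F.card := by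
    rw [Nat.card_eq_fintype_card, Fintype.card_subtype]
  rw [hNc]
  calc (F.card : ℝ) ≤ ((⌊Real.exp (2 * (3 * η₀) * N)⌋₊ * target.card : ℕ) : ℝ) := by
        exact_mod_cast hcard
    _ = (⌊Real.exp (2 * (3 * η₀) * N)⌋₊ : ℝ) * (K : ℝ) ^ M := by rw [htc]; push_cast; ring
    _ ≤ _ := by
      have := Nat.floor_le (Real.exp_pos (2 * (3 * η₀) * N)).le
      gcongr

theorem flat_count {η : ℝ} (hη : 0 < η) : ∃ c : ℝ, 0 < c ∧ ∃ N₀ : ℕ, ∀ N : ℕ, N₀ ≤ N →
    (Nat.card {e : Fin N → Bool // IsFlat c N (coef e)} : ℝ) ≤ Real.exp (η * N) := by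
  have hpi := Real.pi_pos
  set η₀ : ℝ := min (1 / 3) (η / 18) with hη₀
  have hη0 : 0 < η₀ := by positivity
  have hη3 : η₀ ≤ 1 / 3 := min_le_left _ _
  have hη18 : η₀ ≤ η / 18 := min_le_right _ _
  set H₂ : ℕ := ⌈2 / η₀⌉₊ with hH₂
  set C : ℝ := (16 / η₀ + 3) * (2 * H₂ + 1) ^ 2 with hC
  have hC0 : 0 < C := by positivity
  obtain ⟨T, hT1, hT⟩ := exists_T hη hC0
  have hT0 : 0 < T := by linarith
  obtain ⟨c, hc0, hc4, -, hloc⟩ := local_freq hT0 hη0
  set H₁ : ℕ := ⌈8 * T / η₀⌉₊ with hH₁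
  set K : ℕ := (2 * H₁ + 1) * ((2 * H₂ + 1) * (2 * H₂ + 1)) with hK
  have hK1 : 1 ≤ K := by
    rw [hK]; exact Nat.one_le_iff_ne_zero.mpr (by positivity)
  have hKC : (K : ℝ) ≤ C * T := by
    have h1 : (H₁ : ℝ) ≤ 8 * T / η₀ + 1 := (Nat.ceil_lt_add_one (by positivity)).le
    have h2 : (2 * (H₁ : ℝ) + 1) ≤ (16 / η₀ + 3) * T := by
      have : (16 / η₀ + 3) * T = 2 * (8 * T / η₀) + 3 * T := by ring
      rw [this]; linarith
    rw [hK, hC]
    push_cast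
    calc (2 * (H₁ : ℝ) + 1) * ((2 * H₂ + 1) * (2 * H₂ + 1)) ≤
        ((16 / η₀ + 3) * T) * ((2 * H₂ + 1) * (2 * H₂ + 1)) := by gcongr
      _ = _ := by ring
  have hlogK : Real.log K ≤ Real.log (C * T) :=
    Real.log_le_log (by exact_mod_cast hK1) hKC
  have hlogK0 : 0 ≤ Real.log K := Real.log_nonneg (by exact_mod_cast hK1)
  obtain ⟨N₁, hN₁⟩ := exists_nat_ge (3 * Real.log K / η)
  refine ⟨c, hc0, max 1 N₁, fun N hN => ?_⟩
  have hN1 : 1 ≤ N := (le_max_left _ _).trans hN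
  have hNpos : (0 : ℝ) < N := by exact_mod_cast hN1
  have hNK : Real.log K ≤ η / 3 * N := by
    have h1 : (N₁ : ℝ) ≤ N := by exact_mod_cast (le_max_right 1 N₁).trans hN
    rw [div_le_iff₀ hη] at hN₁
    nlinarith
  have h1 := count_bound hη0 hη3 hT0 hc4 hloc hN1
  rw [← hH₂, ← hH₁, ← hK] at h1
  set M : ℕ := ⌊2 * Real.pi * N / T⌋₊ + 1 with hM
  have hM1 : (M : ℝ) ≤ 2 * Real.pi * N / T + 1 := by
    rw [hM]; push_cast
    have := Nat.floor_le (a := 2 * Real.pi * N / T) (by positivity)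
    linarith
  have h2 : (K : ℝ) ^ M = Real.exp (M * Real.log K) := by
    rw [Real.exp_nat_mul, Real.exp_log (by exact_mod_cast hK1)]
  refine h1.trans ?_
  rw [h2, ← Real.exp_add]
  apply Real.exp_le_exp.mpr
  have h3 : (M : ℝ) * Real.log K ≤ (2 * Real.pi * N / T + 1) * Real.log K := by gcongr
  have h4 : 2 * Real.pi * N / T * Real.log K ≤ η / 3 * N := by
    have : 2 * Real.pi * N / T * Real.log K = (2 * Real.pi / T * Real.log K) * N := by ring
    rw [this]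
    have h5 : 2 * Real.pi / T * Real.log K ≤ 2 * Real.pi / T * Real.log (C * T) := by gcongr
    have := h5.trans hT
    gcongr
  have h6 : 2 * (3 * η₀) * N ≤ η / 3 * N := by
    have : 2 * (3 * η₀) ≤ η / 3 := by linarith
    gcongr
  nlinarith

end Vale.Agent.H12.Flat
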