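import Vale.Agent.H12.Flat.Core
import Vale.Agent.H12.Flat.Ball

open Complex Polynomial MeasureTheory

namespace Vale.Agent.H12.Flat

/-- coefficient sequence of a sign vector -/
noncomputable def coef {N : ℕ} (e : Fin N → Bool) (k : ℕ) : ℂ :=
  if h : k < N then (if e ⟨k, h⟩ then 1 else -1) else 1

theorem norm_coef {N : ℕ} (e : Fin N → Bool) (k : ℕ) : ‖coef e k‖ = 1 := by
  unfold coef
  split_ifs <;> simp

theorem floor_eq_abs_sub_lt {x y : ℝ} (h : ⌊x⌋ = ⌊y⌋) : |x - y| ≤ 1 := by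
  have h1 := Int.floor_le x
  have h2 := Int.lt_floor_add_one x
  have h3 := Int.floor_le y
  have h4 := Int.lt_floor_add_one y
  rw [h] at h1 h2
  rw [abs_le]
  constructor <;> linarith

theorem floor_mem_Icc {x : ℝ} {H : ℕ} (h : |x| ≤ H) :
    ⌊x⌋ ∈ Finset.Icc (-(H : ℤ)) (H : ℤ) := by
  rw [abs_le] at h
  rw [Finset.mem_Icc]
  constructor
  · rw [Int.le_floor]; push_cast; exact h.1
  · have := Int.floor_le x
    have h2 : (⌊x⌋ : ℝ) ≤ H := this.trans h.2
    exact_mod_cast h2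

/-- two flat polynomials with the same code are close -/
theorem close_of_code {T η : ℝ} (hT : 0 < T) (hη : 0 < η) {N : ℕ} (hN : 1 ≤ N) {a a' : ℕ → ℂ}
    {z₀ : ℂ} {α α' : ℝ}
    (hα : ∀ t : ℝ, |t| ≤ T →
      ‖(pol a N).eval (z₀ * exp (I * t / N)) - exp (I * (α * t : ℝ)) * (pol a N).eval z₀‖ ≤ η * √N)
    (hα' : ∀ t : ℝ, |t| ≤ T →
      ‖(pol a' N).eval (z₀ * exp (I * t / N)) - exp (I * (α' * t : ℝ)) * (pol a' N).eval z₀‖ ≤ η * √N)
    (hP : ‖(pol a N).eval z₀‖ ≤ 2 * √N)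
    (h1 : |α * T / η - α' * T / η| ≤ 1)
    (h2 : |((pol a N).eval z₀).re / (η * √N) - ((pol a' N).eval z₀).re / (η * √N)| ≤ 1)
    (h3 : |((pol a N).eval z₀).im / (η * √N) - ((pol a' N).eval z₀).im / (η * √N)| ≤ 1)
    {t : ℝ} (ht : |t| ≤ T) :
    ‖(pol a N).eval (z₀ * exp (I * t / N)) - (pol a' N).eval (z₀ * exp (I * t / N))‖ ≤
      6 * η * √N := by
  have hNpos : (0 : ℝ) < N := by exact_mod_cast hN
  set r := √(N : ℝ) with hr
  have hr0 : 0 < r := Real.sqrt_pos.mpr hNpos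
  have hηr : 0 < η * r := by positivity
  set p := (pol a N).eval z₀
  set q := (pol a' N).eval z₀
  have e1 : |α - α'| * T ≤ η := by
    have : |α * T / η - α' * T / η| = |α - α'| * T / η := by
      rw [← sub_div, ← sub_mul, abs_div, abs_mul, abs_of_pos hT, abs_of_pos hη]
    rw [this, div_le_one hη] at h1
    exact h1
  have e2 : |(p - q).re| ≤ η * r := by
    rw [← sub_div, abs_div, abs_of_pos hηr, div_le_one hηr] at h2
    simpa using h2
  have e3 : |(p - q).im| ≤ η * r := by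
    rw [← sub_div, abs_div, abs_of_pos hηr, div_le_one hηr] at h3
    simpa using h3
  have e4 : ‖p - q‖ ≤ 2 * (η * r) := by
    refine (Complex.norm_le_abs_re_add_abs_im _).trans ?_
    linarith
  have e5 : ‖exp (I * (α * t : ℝ)) * p - exp (I * (α' * t : ℝ)) * q‖ ≤ 4 * (η * r) := by
    have : exp (I * (α * t : ℝ)) * p - exp (I * (α' * t : ℝ)) * q =
      (exp (I * (α * t : ℝ)) - exp (I * (α' * t : ℝ))) * p + exp (I * (α' * t : ℝ)) * (p - q) := by
      ring
    rw [this]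
    refine (norm_add_le _ _).trans ?_
    rw [norm_mul, norm_mul]
    have h6 : ‖exp (I * (α' * t : ℝ))‖ = 1 := by rw [Complex.norm_exp]; simp
    have h7 : ‖exp (I * (α * t : ℝ)) - exp (I * (α' * t : ℝ))‖ ≤ η := by
      refine (norm_exp_sub_exp_le _ _).trans ?_
      rw [← sub_mul, abs_mul]
      refine le_trans ?_ e1
      gcongr
    rw [h6, one_mul]
    calc _ ≤ η * (2 * r) + 2 * (η * r) := by gcongr
      _ = 4 * (η * r) := by ring
  have e6 := hα t ht
  have e7 := hα' t ht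
  have e8 : (pol a N).eval (z₀ * exp (I * t / N)) - (pol a' N).eval (z₀ * exp (I * t / N)) =
      ((pol a N).eval (z₀ * exp (I * t / N)) - exp (I * (α * t : ℝ)) * p) +
      (exp (I * (α * t : ℝ)) * p - exp (I * (α' * t : ℝ)) * q) -
      ((pol a' N).eval (z₀ * exp (I * t / N)) - exp (I * (α' * t : ℝ)) * q) := by ring
  rw [e8]
  refine (norm_sub_le _ _).trans ?_
  have := norm_add_le ((pol a N).eval (z₀ * exp (I * t / N)) - exp (I * (α * t : ℝ)) * p)
      (exp (I * (α * t : ℝ)) * p - exp (I * (α' * t : ℝ)) * q)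
  linarith

/-- Hamming distance from uniform distance -/
theorem hamming_of_close {N : ℕ} (e e' : Fin N → Bool) {D : ℝ} 
    (h : ∀ θ : ℝ, θ ∈ Set.Icc 0 (2 * Real.pi) → 
      ‖(pol (coef e) N).eval (exp (I * θ)) - (pol (coef e') N).eval (exp (I * θ))‖ ≤ D) :
    4 * ((Finset.univ.filter fun i => e i ≠ e' i).card : ℝ) ≤ D ^ 2 := by
  classical
  set u : ℕ → ℂ := fun k => coef e k - coef e' k with hu
  have h1 : ∀ θ : ℝ, trig u N θ = (pol (coef e) N).eval (exp (I * θ)) -
      (pol (coef e') N).eval (exp (I * θ)) := by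
    intro θ
    rw [pol_eval_trig, pol_eval_trig]
    unfold trig
    rw [← Finset.sum_sub_distrib]
    refine Finset.sum_congr rfl fun k _ => ?_
    rw [hu]; ring
  have h2 := integral_re_trig u u N
  have hc := trig_continuous u N
  have h3 : ∫ θ in (0 : ℝ)..(2 * Real.pi), (trig u N θ * starRingEnd ℂ (trig u N θ)).re ≤
      ∫ θ in (0 : ℝ)..(2 * Real.pi), D ^ 2 := by
    apply intervalIntegral.integral_mono_on Real.two_pi_pos.le
    · exact Continuous.intervalIntegrable (by fun_prop) _ _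
    · exact _root_.intervalIntegrable_const
    · intro θ hθ
      rw [Complex.mul_conj, Complex.normSq_eq_norm_sq, Complex.ofReal_re, h1]
      exact pow_le_pow_left₀ (norm_nonneg _) (h θ hθ) 2
  rw [h2, intervalIntegral.integral_const, sub_zero, smul_eq_mul] at h3
  have h4 := le_of_mul_le_mul_left h3 Real.two_pi_pos
  refine le_trans (le_of_eq ?_) h4
  rw [Complex.re_sum]
  have h5 : ∀ k ∈ Finset.range N, (u k * starRingEnd ℂ (u k)).re =
      if h : k < N then (if e ⟨k, h⟩ ≠ e' ⟨k, h⟩ then (4 : ℝ) else 0) else 0 := by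
    intro k hk
    have hk' := Finset.mem_range.mp hk
    rw [dif_pos hk', Complex.mul_conj, Complex.normSq_eq_norm_sq, Complex.ofReal_re, hu]
    simp only [coef, dif_pos hk']
    cases e ⟨k, hk'⟩ <;> cases e' ⟨k, hk'⟩ <;> simp <;> norm_num
  rw [Finset.sum_congr rfl h5]
  have h6 : ∑ k ∈ Finset.range N, (if h : k < N then (if e ⟨k, h⟩ ≠ e' ⟨k, h⟩ then (4 : ℝ) else 0) else 0)
      = ∑ i : Fin N, (if e i ≠ e' i then (4 : ℝ) else 0) := by
    rw [Finset.sum_range]
    refine Finset.sum_congr rfl fun i _ => ?_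
    rw [dif_pos i.2]
  rw [h6, ← Finset.sum_filter, Finset.sum_const, nsmul_eq_mul]
  ring

end Vale.Agent.H12.Flat
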