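import Vale.Agent.H12.Flat.Segment
import Vale.Agent.H12.Flat.Count

open Complex Filter

namespace Vale.Agent.H12.Flat

/-- no segment of proportional length of a flat polynomial is flat -/
theorem no_flat_segment {δ : ℝ} (hδ : 0 < δ) : ∃ c : ℝ, 0 < c ∧ ∃ N₀ : ℕ, ∀ N : ℕ, N₀ ≤ N →
    ∀ a : ℕ → ℂ, (∀ k, ‖a k‖ = 1) → IsFlat c N a → ∀ m n : ℕ, m ≤ n → n ≤ N →
      δ * N ≤ (n : ℝ) - m → (n : ℝ) - m ≤ (1 - δ) * N →
      ∃ z : ℂ, ‖z‖ = 1 ∧ (1 + δ / 16) * √((n : ℝ) - m) < ‖∑ k ∈ Finset.Ico m n, a k * z ^ k‖ := by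
  obtain ⟨c, hc, N₀, hN₀, H⟩ := segment_L4 (δ := δ ^ 2 / 4) (by positivity)
  refine ⟨c, hc, N₀, fun N hN a ha hflat m n hmn hnN h1 h2 => ?_⟩
  have hN1 : 1 ≤ N := hN₀.trans hN
  have hNpos : (0 : ℝ) < N := by exact_mod_cast hN1
  have h3 := H N hN a ha hflat m n hmn hnN
  by_contra hcon
  push Not at hcon
  set d : ℝ := (n : ℝ) - m with hd
  have hd0 : 0 ≤ d := le_trans (by positivity) h1
  have hδ1 : δ ≤ 1 / 2 := by
    by_contra h
    push Not at h
    nlinarith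
  have hb : ∀ θ : ℝ, ‖∑ k ∈ Finset.Ico m n, a k * exp (I * θ) ^ k‖ ^ 4 ≤ (1 + δ / 16) ^ 4 * d ^ 2 := by
    intro θ
    have h4 := hcon (exp (I * θ)) (by rw [Complex.norm_exp]; simp)
    have h5 : ‖∑ k ∈ Finset.Ico m n, a k * exp (I * θ) ^ k‖ ^ 4 ≤ ((1 + δ / 16) * √d) ^ 4 :=
      pow_le_pow_left₀ (norm_nonneg _) h4 4
    refine h5.trans (le_of_eq ?_)
    have h6 : √d ^ 4 = d ^ 2 := by
      have : √d ^ 4 = (√d ^ 2) ^ 2 := by ring
      rw [this, Real.sq_sqrt hd0]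
    rw [mul_pow, h6]
  have h7 : ∫ θ in (0 : ℝ)..(2 * Real.pi), ‖∑ k ∈ Finset.Ico m n, a k * exp (I * θ) ^ k‖ ^ 4 ≤
      ∫ θ in (0 : ℝ)..(2 * Real.pi), (1 + δ / 16) ^ 4 * d ^ 2 := by
    apply intervalIntegral.integral_mono_on Real.two_pi_pos.le
    · exact Continuous.intervalIntegrable (by fun_prop) _ _
    · exact _root_.intervalIntegrable_const
    · intro θ _
      exact hb θ
  rw [intervalIntegral.integral_const, sub_zero, smul_eq_mul] at h7
  have h8 := le_of_mul_le_mul_left (h3.trans h7) Real.two_pi_pos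
  -- d N - δ²/4 N² ≤ (1+δ/16)^4 d²
  have h9 : (1 + δ / 16) ^ 4 ≤ 1 + δ / 2 := by
    nlinarith [sq_nonneg δ, mul_pos hδ hδ, mul_pos (mul_pos hδ hδ) hδ]
  have h10 : (1 + δ / 16) ^ 4 * d ^ 2 ≤ (1 + δ / 2) * d ^ 2 := by
    gcongr
  have h11 : d * ((1 + δ / 2) * d) ≤ d * ((1 - δ / 2) * N) := by
    apply mul_le_mul_of_nonneg_left _ hd0
    calc (1 + δ / 2) * d ≤ (1 + δ / 2) * ((1 - δ) * N) := by gcongr
      _ ≤ (1 - δ / 2) * N := by nlinarith
  have h12 : d * (δ / 2 * N) ≥ δ * N * (δ / 2 * N) := by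
    apply mul_le_mul_of_nonneg_right h1
    positivity
  nlinarith [mul_pos (mul_pos hδ hδ) (mul_pos hNpos hNpos)]

/-- no infinite unimodular sequence has ultraflat initial segments along lengths with bounded
ratios -/
theorem no_hereditary (a : ℕ → ℂ) (ha : ∀ k, ‖a k‖ = 1) (K : ℝ) (L : ℕ → ℕ)
    (hL : Tendsto L atTop atTop) (hK : ∀ i, (L (i + 1) : ℝ) ≤ K * L i) :
    ¬ ∀ c : ℝ, 0 < c → ∀ᶠ i in atTop, IsFlat c (L i) a := by
  intro hflat
  -- normalise K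
  set K' : ℝ := max K 2 with hK'
  have hK2 : 2 ≤ K' := le_max_right _ _
  have hKK : ∀ i, (L (i + 1) : ℝ) ≤ K' * L i := fun i =>
    (hK i).trans (by have := le_max_left K 2; gcongr)
  set δ : ℝ := 1 / (2 * K') with hδ
  have hδ0 : 0 < δ := by positivity
  have hδ4 : δ ≤ 1 / 4 := by
    rw [hδ]
    apply one_div_le_one_div_of_le <;> linarith
  obtain ⟨c, hc, N₀, H⟩ := no_flat_segment hδ0
  have hev := (hflat (min c (δ / 32)) (by positivity)).and
    ((hL.eventually_ge_atTop (max 1 N₀)))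
  obtain ⟨i₀, hi₀⟩ := eventually_atTop.mp hev
  set M := L i₀ with hM
  have hM1 : 1 ≤ M := (le_max_left _ _).trans (hi₀ i₀ le_rfl).2
  have hMpos : (0 : ℝ) < M := by exact_mod_cast hM1
  -- first index beyond with length ≥ 2M
  have hex : ∃ i, i₀ ≤ i ∧ 2 * M ≤ L i := by
    obtain ⟨j, hj⟩ := eventually_atTop.mp (hL.eventually_ge_atTop (2 * M))
    exact ⟨max i₀ j, le_max_left _ _, hj _ (le_max_right _ _)⟩
  classical
  set j := Nat.find hex with hj
  obtain ⟨hj1, hj2⟩ := Nat.find_spec hex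
  rw [← hj] at hj1 hj2
  have hj3 : i₀ < j := by
    rcases hj1.lt_or_eq with h | h
    · exact h
    · exfalso
      rw [← h, ← hM] at hj2
      omega
  have hj4 : L (j - 1) < 2 * M := by
    by_contra h
    push Not at h
    exact Nat.find_min hex (m := j - 1) (by omega) ⟨by omega, h⟩
  have hj5 : (L j : ℝ) ≤ K' * (2 * M) := by
    have h1 := hKK (j - 1)
    rw [Nat.sub_add_cancel (by omega)] at h1
    refine h1.trans ?_
    have : (L (j - 1) : ℝ) ≤ 2 * M := by exact_mod_cast hj4.le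
    gcongr
  have hLj0 : (0 : ℝ) ≤ L j := by positivity
  have hj2' : (2 : ℝ) * M ≤ L j := by exact_mod_cast hj2
  obtain ⟨z, hz, hz2⟩ := H (L j) ((le_max_right _ _).trans (hi₀ j hj1).2) a ha
    ((hi₀ j hj1).1.mono (min_le_left _ _)) 0 M (Nat.zero_le _) (by omega)
    (by
      simp only [Nat.cast_zero, sub_zero]
      rw [hδ, div_mul_eq_mul_div, div_le_iff₀ (by positivity)]
      linarith)
    (by
      simp only [Nat.cast_zero, sub_zero]
      nlinarith)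
  have h5 := ((hi₀ i₀ le_rfl).1 z hz).2
  rw [← hM, Finset.range_eq_Ico] at h5
  simp only [Nat.cast_zero, sub_zero] at hz2
  have h6 : (1 + min c (δ / 32)) * √(M : ℝ) ≤ (1 + δ / 16) * √(M : ℝ) := by
    have : min c (δ / 32) ≤ δ / 16 := (min_le_right _ _).trans (by linarith)
    gcongr
  linarith

end Vale.Agent.H12.Flat
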