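import Vale.Agent.H12.Flat.LocalFreq

open Complex Polynomial MeasureTheory intervalIntegral

namespace Vale.Agent.H12.Flat

theorem integral_exp_int (m : ℤ) :
    ∫ θ in (0 : ℝ)..(2 * Real.pi), exp ((I * m) * θ) = if m = 0 then (2 * Real.pi : ℂ) else 0 := by
  split_ifs with h
  · subst h
    simp
  · have hc : I * (m : ℂ) ≠ 0 := mul_ne_zero I_ne_zero (by exact_mod_cast h)
    rw [integral_exp_mul_complex hc]
    have h1 : exp (I * (m : ℂ) * ((2 * Real.pi : ℝ) : ℂ)) = 1 := by
      rw [Complex.exp_eq_one_iff]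
      exact ⟨m, by push_cast; ring⟩
    rw [h1]
    simp

/-- trigonometric sum -/
noncomputable def trig (u : ℕ → ℂ) (N : ℕ) (θ : ℝ) : ℂ :=
  ∑ k ∈ Finset.range N, u k * exp (I * θ) ^ k

theorem trig_continuous (u : ℕ → ℂ) (N : ℕ) : Continuous (trig u N) := by
  unfold trig
  fun_prop

theorem integral_trig (u v : ℕ → ℂ) (N : ℕ) :
    ∫ θ in (0 : ℝ)..(2 * Real.pi), trig u N θ * starRingEnd ℂ (trig v N θ) =
      2 * Real.pi * ∑ k ∈ Finset.range N, u k * starRingEnd ℂ (v k) := by
  have h1 : ∀ θ : ℝ, trig u N θ * starRingEnd ℂ (trig v N θ) =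
      ∑ k ∈ Finset.range N, ∑ l ∈ Finset.range N,
        (u k * starRingEnd ℂ (v l)) * exp ((I * ((k : ℤ) - (l : ℤ) : ℤ)) * θ) := by
    intro θ
    unfold trig
    rw [map_sum, Finset.sum_mul_sum]
    refine Finset.sum_congr rfl fun k _ => Finset.sum_congr rfl fun l _ => ?_
    rw [map_mul, map_pow, ← Complex.exp_conj, map_mul, Complex.conj_I, Complex.conj_ofReal,
      ← Complex.exp_nat_mul, ← Complex.exp_nat_mul]
    have : exp ((I * ((k : ℤ) - (l : ℤ) : ℤ)) * (θ : ℂ)) =
        exp ((k : ℂ) * (I * θ)) * exp ((l : ℂ) * (-I * θ)) := by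
      rw [← exp_add]
      congr 1
      push_cast
      ring
    rw [this]
    ring
  simp_rw [h1]
  have hint : ∀ k l : ℕ, IntervalIntegrable
      (fun θ : ℝ => (u k * starRingEnd ℂ (v l)) * exp ((I * ((k : ℤ) - (l : ℤ) : ℤ)) * θ))
      volume 0 (2 * Real.pi) := fun k l => by
    apply Continuous.intervalIntegrable
    fun_prop
  rw [intervalIntegral.integral_finsetSum (fun k _ => by
    apply Continuous.intervalIntegrable
    fun_prop)]
  rw [Finset.mul_sum]
  refine Finset.sum_congr rfl fun k hk => ?_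
  rw [intervalIntegral.integral_finsetSum (fun l _ => hint k l)]
  simp_rw [intervalIntegral.integral_const_mul, integral_exp_int]
  rw [Finset.sum_eq_single k]
  · simp
    ring
  · intro l _ hl
    have : ((k : ℤ) - (l : ℤ)) ≠ 0 := by omega
    simp [this]
  · intro h
    exact absurd hk h

theorem integral_re_trig (u v : ℕ → ℂ) (N : ℕ) :
    ∫ θ in (0 : ℝ)..(2 * Real.pi), (trig u N θ * starRingEnd ℂ (trig v N θ)).re =
      2 * Real.pi * (∑ k ∈ Finset.range N, u k * starRingEnd ℂ (v k)).re := by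
  have h := integral_trig u v N
  have h2 := congrArg Complex.re h
  have h3 : (∫ θ in (0 : ℝ)..(2 * Real.pi), trig u N θ * starRingEnd ℂ (trig v N θ)).re =
      ∫ θ in (0 : ℝ)..(2 * Real.pi), (trig u N θ * starRingEnd ℂ (trig v N θ)).re := by
    have hcont : Continuous fun θ => trig u N θ * starRingEnd ℂ (trig v N θ) := by
      have := trig_continuous u N
      have h' := trig_continuous v N
      fun_prop
    have := (Complex.reCLM.intervalIntegral_comp_comm (hcont.intervalIntegrable (μ := volume) 0 (2 * Real.pi)))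
    simpa using this.symm
  rw [h3] at h2
  rw [h2]
  have : (2 * (Real.pi : ℂ)) = ((2 * Real.pi : ℝ) : ℂ) := by push_cast; ring
  rw [this, Complex.re_ofReal_mul]

end Vale.Agent.H12.Flat
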