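import Mathlib

open Complex Polynomial

namespace Vale.Agent.H12.Flat

theorem poly_bound_in {p : ℂ[X]} {M : ℝ} (h : ∀ z : ℂ, ‖z‖ = 1 → ‖p.eval z‖ ≤ M) {z : ℂ}
    (hz : ‖z‖ ≤ 1) : ‖p.eval z‖ ≤ M := by
  have hb : Bornology.IsBounded (Metric.ball (0 : ℂ) 1) := Metric.isBounded_ball
  refine Complex.norm_le_of_forall_mem_frontier_norm_le (f := fun z => p.eval z) hb ?_ ?_ ?_
  · exact (Polynomial.differentiable p).diffContOnCl
  · intro w hw
    rw [frontier_ball (0 : ℂ) one_ne_zero] at hw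
    exact h w (by simpa using hw)
  · rw [closure_ball (0 : ℂ) one_ne_zero]
    simpa using hz

theorem poly_bound_out {p : ℂ[X]} {M : ℝ} {n : ℕ} (hn : p.natDegree ≤ n)
    (h : ∀ z : ℂ, ‖z‖ = 1 → ‖p.eval z‖ ≤ M) {z : ℂ}
    (hz : 1 ≤ ‖z‖) : ‖p.eval z‖ ≤ M * ‖z‖ ^ n := by
  have hz0 : z ≠ 0 := by
    intro h0
    rw [h0, norm_zero] at hz
    linarith
  have key : ∀ w : ℂ, w ≠ 0 → (Polynomial.reflect n p).eval w⁻¹ * w ^ n = p.eval w := by
    intro w hw
    letI : Invertible w := invertibleOfNonzero hw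
    have := Polynomial.eval₂_reflect_mul_pow (RingHom.id ℂ) w n p hn
    rw [invOf_eq_inv] at this
    simpa [Polynomial.eval₂_id] using this
  have h2 : ∀ w : ℂ, ‖w‖ = 1 → ‖(Polynomial.reflect n p).eval w‖ ≤ M := by
    intro w hw
    have hw0 : w ≠ 0 := by
      intro h0
      rw [h0, norm_zero] at hw
      exact zero_ne_one hw
    have hk := key w⁻¹ (inv_ne_zero hw0)
    rw [inv_inv] at hk
    have hn1 : ‖w⁻¹‖ = 1 := by rw [norm_inv, hw, inv_one]
    have := h w⁻¹ hn1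
    rw [← hk, norm_mul, norm_pow, hn1, one_pow, mul_one] at this
    exact this
  have h3 : ‖(Polynomial.reflect n p).eval z⁻¹‖ ≤ M := by
    apply poly_bound_in h2
    rw [norm_inv]
    exact inv_le_one_of_one_le₀ hz
  rw [← key z hz0, norm_mul, norm_pow]
  exact mul_le_mul_of_nonneg_right h3 (by positivity)

end Vale.Agent.H12.Flat
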