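import Vale.Agent.H12.Flat.Growth

open Complex Polynomial Metric Set

namespace Vale.Agent.H12.Flat

/-- quantitative linearisation of the logarithm of a zero-free function of exponential growth -/
theorem log_linear {F : ℂ → ℂ} {R : ℝ} (hR : 1 ≤ R) (hF : DifferentiableOn ℂ F (ball 0 R))
    (h0 : ∀ w ∈ ball (0 : ℂ) R, F w ≠ 0)
    (hb : ∀ w ∈ ball (0 : ℂ) R, ‖F w‖ ≤ Real.exp (R + 1) * ‖F 0‖) :
    ∃ (g : ℂ) (h : ℂ → ℂ), ‖g‖ ≤ 8 ∧ ∀ w : ℂ, ‖w‖ < R / 2 → F w = F 0 * exp (h w) ∧
      ‖h w - g * w‖ ≤ 34 * ‖w‖ ^ 2 / R := by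
  have hR0 : 0 < R := by linarith
  have hball0 : (0 : ℂ) ∈ ball (0 : ℂ) R := mem_ball_self hR0
  have hdF : DifferentiableOn ℂ (deriv F) (ball 0 R) := hF.deriv isOpen_ball
  have hq : DifferentiableOn ℂ (fun w => deriv F w / F w) (ball 0 R) := hdF.div hF h0
  obtain ⟨h, hh0, hh⟩ := (hq.isExactOn_ball).with_val_at 0 (0 : ℂ)
  have hhd : DifferentiableOn ℂ h (ball 0 R) := fun w hw => (hh w hw).differentiableAt.differentiableWithinAt
  have hFd : ∀ w ∈ ball (0 : ℂ) R, HasDerivAt F (deriv F w) w := fun w hw =>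
    (hF.differentiableAt (isOpen_ball.mem_nhds hw)).hasDerivAt
  have hconst : ∀ w ∈ ball (0 : ℂ) R, F w * exp (-h w) = F 0 := by
    intro w hw
    have hd : ∀ u ∈ ball (0 : ℂ) R, HasDerivAt (fun u => F u * exp (-h u)) 0 u := by
      intro u hu
      have := (hFd u hu).mul ((hh u hu).neg.cexp)
      refine this.congr_deriv ?_
      rw [Pi.neg_apply]
      have hne := h0 u hu
      have e : F u * (exp (-h u) * -(deriv F u / F u)) = -(deriv F u * exp (-h u)) := by
        field_simp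
      rw [e]
      ring
    have := IsOpen.is_const_of_deriv_eq_zero (isOpen_ball) (convex_ball (0:ℂ) R).isPreconnected
      (fun u hu => (hd u hu).differentiableAt.differentiableWithinAt)
      (fun u hu => (hd u hu).deriv) hw hball0
    simpa [hh0] using this
  have hFexp : ∀ w ∈ ball (0 : ℂ) R, F w = F 0 * exp (h w) := by
    intro w hw
    rw [← hconst w hw, mul_assoc, ← exp_add]
    simp
  have hF0 : 0 < ‖F 0‖ := norm_pos_iff.mpr (h0 0 hball0)
  have hre : Set.MapsTo h (ball 0 R) {z | z.re ≤ R + 1} := by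
    intro w hw
    have h1 := hb w hw
    rw [hFexp w hw, norm_mul, Complex.norm_exp, mul_comm] at h1
    have h2 := le_of_mul_le_mul_right h1 hF0
    exact Real.exp_le_exp.mp h2
  have hbound : ∀ w ∈ ball (0 : ℂ) (R / 2), ‖h w‖ ≤ 4 * R := by
    intro w hw
    have hw' : ‖w‖ < R / 2 := by simpa using hw
    have hwR : w ∈ ball (0 : ℂ) R := by
      simp only [mem_ball, dist_zero_right]; linarith
    have := borelCaratheodory_zero (M := R + 1) (by linarith) hhd hre hR0 hwR hh0
    refine this.trans ?_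
    rw [div_le_iff₀ (by linarith)]
    nlinarith [norm_nonneg w]
  have hsub : ball (0 : ℂ) (R / 2) ⊆ ball 0 R := ball_subset_ball (by linarith)
  have hhd2 : DifferentiableOn ℂ h (ball 0 (R / 2)) := hhd.mono hsub
  have hR2 : 0 < R / 2 := by linarith
  have hg1 : ∀ w ∈ ball (0 : ℂ) (R / 2), ‖dslope h 0 w‖ ≤ 8 := by
    intro w hw
    have := norm_dslope_le_div_of_mapsTo_ball (R₂ := 4 * R) hhd2 (fun u hu => by
      rw [hh0]; simpa using hbound u hu) hw
    refine this.trans (le_of_eq ?_)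
    field_simp
    norm_num
  have hgd : DifferentiableOn ℂ (dslope h 0) (ball 0 (R / 2)) :=
    (differentiableOn_dslope (isOpen_ball.mem_nhds (mem_ball_self hR2))).mpr hhd2
  have hg2 : ∀ w ∈ ball (0 : ℂ) (R / 2), ‖dslope (dslope h 0) 0 w‖ ≤ 34 / R := by
    intro w hw
    have := norm_dslope_le_div_of_mapsTo_ball (R₂ := 17) hgd (fun u hu => by
      rw [mem_closedBall, dist_eq_norm]
      have h1 := hg1 u hu
      have h2 := hg1 0 (mem_ball_self hR2)
      have h3 := norm_sub_le (dslope h 0 u) (dslope h 0 0)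
      linarith) hw
    refine this.trans (le_of_eq ?_)
    field_simp
    norm_num
  refine ⟨dslope h 0 0, h, hg1 0 (mem_ball_self hR2),
    fun w hw => ⟨hFexp w (hsub (by simpa using hw)), ?_⟩⟩
  have hw' : w ∈ ball (0 : ℂ) (R / 2) := by simpa using hw
  have e1 : w * dslope h 0 w = h w := by
    have := sub_smul_dslope h 0 w
    simpa [hh0] using this
  have e2 : w * dslope (dslope h 0) 0 w = dslope h 0 w - dslope h 0 0 := by
    have := sub_smul_dslope (dslope h 0) 0 w
    simpa using this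
  have e3 : h w - dslope h 0 0 * w = w ^ 2 * dslope (dslope h 0) 0 w := by
    rw [← e1]
    have : dslope h 0 w = dslope h 0 0 + w * dslope (dslope h 0) 0 w := by rw [e2]; ring
    rw [this]
    ring
  rw [e3, norm_mul, norm_pow]
  have := hg2 w hw'
  calc ‖w‖ ^ 2 * ‖dslope (dslope h 0) 0 w‖ ≤ ‖w‖ ^ 2 * (34 / R) := by gcongr
    _ = 34 * ‖w‖ ^ 2 / R := by ring

end Vale.Agent.H12.Flat
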