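import Vale.Agent.H12.Flat.Local

open Complex Polynomial Metric

namespace Vale.Agent.H12.Flat

/-- `|P|` is within a factor `1 ± c` of `√N` on the unit circle, `P = ∑_{k<N} a_k z^k` -/
def IsFlat (c : ℝ) (N : ℕ) (a : ℕ → ℂ) : Prop :=
  ∀ z : ℂ, ‖z‖ = 1 → (1 - c) * √N ≤ ‖∑ k ∈ Finset.range N, a k * z ^ k‖ ∧
    ‖∑ k ∈ Finset.range N, a k * z ^ k‖ ≤ (1 + c) * √N

theorem IsFlat.mono {c c' : ℝ} {N : ℕ} {a : ℕ → ℂ} (h : IsFlat c N a) (hc : c ≤ c') :
    IsFlat c' N a := fun z hz => by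
  obtain ⟨h1, h2⟩ := h z hz
  have := Real.sqrt_nonneg (N : ℝ)
  exact ⟨by nlinarith, by nlinarith⟩

/-- the polynomial -/
noncomputable def pol (a : ℕ → ℂ) (N : ℕ) : ℂ[X] := ∑ k ∈ Finset.range N, C (a k) * X ^ k

theorem pol_eval (a : ℕ → ℂ) (N : ℕ) (z : ℂ) :
    (pol a N).eval z = ∑ k ∈ Finset.range N, a k * z ^ k := by
  simp [pol, eval_finsetSum]

theorem pol_natDegree (a : ℕ → ℂ) (n : ℕ) : (pol a (n + 1)).natDegree ≤ n := by
  unfold pol
  refine natDegree_sum_le_of_forall_le _ _ fun k hk => ?_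
  refine (natDegree_C_mul_X_pow_le _ _).trans ?_
  have := Finset.mem_range.mp hk
  omega

theorem reflect_eval_conj {p : ℂ[X]} {n : ℕ} (hn : p.natDegree ≤ n) {z : ℂ} (hz : ‖z‖ = 1) :
    (reflect n (p.map (starRingEnd ℂ))).eval z = z ^ n * starRingEnd ℂ (p.eval z) := by
  have hz0 : z ≠ 0 := by
    intro h0
    rw [h0, norm_zero] at hz
    exact zero_ne_one hz
  have hdeg : (p.map (starRingEnd ℂ)).natDegree ≤ n := (natDegree_map_le).trans hn
  let : Invertible z⁻¹ := invertibleOfNonzero (inv_ne_zero hz0)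
  have := Polynomial.eval₂_reflect_mul_pow (RingHom.id ℂ) z⁻¹ n (p.map (starRingEnd ℂ)) hdeg
  rw [invOf_eq_inv, inv_inv] at this
  have h1 : (reflect n (p.map (starRingEnd ℂ))).eval z * z⁻¹ ^ n
      = (p.map (starRingEnd ℂ)).eval z⁻¹ := by simpa [Polynomial.eval₂_id] using this
  have h2 : z⁻¹ = starRingEnd ℂ z := by
    rw [Complex.inv_def, Complex.normSq_eq_norm_sq, hz]; simp
  have h3 : (p.map (starRingEnd ℂ)).eval z⁻¹ = starRingEnd ℂ (p.eval z) := by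
    rw [h2, Polynomial.eval_map, Polynomial.eval₂_hom]
  rw [h3] at h1
  have h4 : z ^ n * z⁻¹ ^ n = 1 := by rw [← mul_pow, mul_inv_cancel₀ hz0, one_pow]
  calc (reflect n (p.map (starRingEnd ℂ))).eval z
      = z ^ n * ((reflect n (p.map (starRingEnd ℂ))).eval z * z⁻¹ ^ n) := by
        rw [mul_comm, mul_assoc, mul_comm (z⁻¹ ^ n), h4, mul_one]
    _ = _ := by rw [h1]

theorem zero_free {c : ℝ} (hc0 : 0 ≤ c) (hc : c ≤ 1) {n : ℕ} {a : ℕ → ℂ}
    (h : IsFlat c (n + 1) a) {z : ℂ} (hz : (pol a (n + 1)).eval z = 0) :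
    ‖z‖ ^ n ≤ 3 * c ∨ 1 ≤ 3 * c * ‖z‖ ^ n := by
  set p := pol a (n + 1) with hp
  have hdeg : p.natDegree ≤ n := pol_natDegree a n
  set q := reflect n (p.map (starRingEnd ℂ)) with hq
  have hqdeg : q.natDegree ≤ n := by
    refine (natDegree_reflect_le).trans ?_
    exact max_le le_rfl ((natDegree_map_le).trans hdeg)
  set D : ℂ[X] := p * q - C ((n : ℂ) + 1) * X ^ n with hD
  have hDdeg : D.natDegree ≤ n + n := by
    refine (natDegree_sub_le _ _).trans (max_le ?_ ?_)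
    · exact (natDegree_mul_le).trans (add_le_add hdeg hqdeg)
    · exact (natDegree_C_mul_X_pow_le _ _).trans (by omega)
  have hDc : ∀ w : ℂ, ‖w‖ = 1 → ‖D.eval w‖ ≤ 3 * c * (n + 1) := by
    intro w hw
    have e1 : D.eval w = w ^ n * (((‖p.eval w‖ ^ 2 - (n + 1) : ℝ)) : ℂ) := by
      rw [hD, eval_sub, eval_mul, eval_mul, eval_C, eval_pow, eval_X, hq, reflect_eval_conj hdeg hw]
      have : p.eval w * starRingEnd ℂ (p.eval w) = ((‖p.eval w‖ ^ 2 : ℝ) : ℂ) := by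
        rw [Complex.mul_conj, Complex.normSq_eq_norm_sq]
      push_cast at this ⊢
      rw [mul_sub, ← this]
      ring
    rw [e1, norm_mul, norm_pow, hw, one_pow, one_mul, Complex.norm_real, Real.norm_eq_abs]
    obtain ⟨h1, h2⟩ := h w hw
    rw [← pol_eval, ← hp] at h1 h2
    have hs : √((n + 1 : ℕ) : ℝ) ^ 2 = (n : ℝ) + 1 := by
      rw [Real.sq_sqrt (by positivity)]; push_cast; ring
    have hs0 : 0 ≤ √((n + 1 : ℕ) : ℝ) := Real.sqrt_nonneg _
    have hn0 : (0 : ℝ) ≤ n := by positivity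
    rw [abs_le]
    constructor
    · have : ((1 - c) * √((n + 1 : ℕ) : ℝ)) ^ 2 ≤ ‖p.eval w‖ ^ 2 :=
        pow_le_pow_left₀ (mul_nonneg (by linarith) hs0) h1 2
      rw [mul_pow, hs] at this
      nlinarith [mul_nonneg hc0 hn0]
    · have : ‖p.eval w‖ ^ 2 ≤ ((1 + c) * √((n + 1 : ℕ) : ℝ)) ^ 2 :=
        pow_le_pow_left₀ (norm_nonneg _) h2 2
      rw [mul_pow, hs] at this
      nlinarith [mul_nonneg hc0 hn0, mul_nonneg (mul_nonneg hc0 (sub_nonneg.mpr hc)) hn0]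
  have hDz : ‖D.eval z‖ = (n + 1) * ‖z‖ ^ n := by
    rw [hD, eval_sub, eval_mul, hz]
    simp only [zero_mul, zero_sub, norm_neg, eval_mul, eval_C, eval_pow, eval_X, norm_mul, norm_pow]
    congr 1
    have : ((n : ℂ) + 1) = ((n + 1 : ℝ) : ℂ) := by push_cast; ring
    rw [this, Complex.norm_real, Real.norm_eq_abs, abs_of_nonneg (by positivity)]
  have hn1 : (0 : ℝ) < n + 1 := by positivity
  rcases le_total ‖z‖ 1 with h1 | h1
  · left
    have := poly_bound_in hDc h1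
    rw [hDz] at this
    have h2 : (n + 1 : ℝ) * ‖z‖ ^ n ≤ (n + 1) * (3 * c) := by linarith
    exact le_of_mul_le_mul_left h2 hn1
  · right
    have := poly_bound_out hDdeg hDc h1
    rw [hDz, pow_add] at this
    have h3 : 0 < ‖z‖ ^ n := by positivity
    have h2 : ((n + 1 : ℝ) * ‖z‖ ^ n) * 1 ≤ ((n + 1 : ℝ) * ‖z‖ ^ n) * (3 * c * ‖z‖ ^ n) := by
      linarith
    exact le_of_mul_le_mul_left h2 (by positivity)

theorem norm_exp_sub_exp_le (x y : ℝ) : ‖exp (I * x) - exp (I * y)‖ ≤ |x - y| := by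
  have h : exp (I * (x : ℂ)) - exp (I * y) = exp (I * y) * (exp (I * ((x - y : ℝ) : ℂ)) - 1) := by
    rw [mul_sub, ← exp_add, mul_one]
    congr 2
    push_cast
    ring
  have h1 : ‖exp (I * (y : ℂ))‖ = 1 := by
    rw [Complex.norm_exp]; simp
  rw [h, norm_mul, h1, one_mul]
  exact Real.norm_exp_I_mul_ofReal_sub_one_le

/-- a flat polynomial is locally, at scale `1/N`, a pure exponential -/
theorem local_freq {T η : ℝ} (hT : 0 < T) (hη : 0 < η) : ∃ c : ℝ, 0 < c ∧ c ≤ 1 / 4 ∧ c ≤ η ∧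
    ∀ N : ℕ, 1 ≤ N → ∀ a : ℕ → ℂ, IsFlat c N a → ∀ z₀ : ℂ, ‖z₀‖ = 1 → ∃ α : ℝ, |α| ≤ 8 ∧
      ∀ t : ℝ, |t| ≤ T →
      ‖(pol a N).eval (z₀ * exp (I * t / N)) - exp (I * (α * t : ℝ)) * (pol a N).eval z₀‖ ≤
        η * √N := by
  obtain ⟨R, hR1, hRT, hRη⟩ : ∃ R : ℝ, 1 ≤ R ∧ 2 * T + 1 ≤ R ∧ 34 * T ^ 2 / R ≤ η / 4 := by
    refine ⟨max (2 * T + 1) (136 * T ^ 2 / η), ?_, le_max_left _ _, ?_⟩
    · exact le_trans (by linarith) (le_max_left _ _)
    · have hpos : 0 < max (2 * T + 1) (136 * T ^ 2 / η) := lt_of_lt_of_le (by linarith) (le_max_left _ _)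
      rw [div_le_iff₀ hpos]
      have := le_max_right (2 * T + 1) (136 * T ^ 2 / η)
      have h2 : η / 4 * (136 * T ^ 2 / η) = 34 * T ^ 2 := by field_simp; norm_num
      nlinarith
  have hR0 : 0 < R := by linarith
  refine ⟨min (1 / 4) (min (η / 12) (Real.exp (-R) / 4)), by positivity, min_le_left _ _,
    (min_le_right _ _).trans ((min_le_left _ _).trans (by linarith)), ?_⟩
  set c := min (1 / 4 : ℝ) (min (η / 12) (Real.exp (-R) / 4)) with hc
  have hc0 : 0 < c := by positivity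
  have hc4 : c ≤ 1 / 4 := min_le_left _ _
  have hcη : c ≤ η / 12 := (min_le_right _ _).trans (min_le_left _ _)
  have hcR : c ≤ Real.exp (-R) / 4 := (min_le_right _ _).trans (min_le_right _ _)
  intro N hN a hflat z₀ hz₀
  obtain ⟨n, rfl⟩ : ∃ n, N = n + 1 := ⟨N - 1, by omega⟩
  set p := pol a (n + 1) with hp
  set s := √((n + 1 : ℕ) : ℝ) with hs
  have hs0 : 0 < s := Real.sqrt_pos.mpr (by positivity)
  have hNpos : (0 : ℝ) < ((n + 1 : ℕ) : ℝ) := by positivity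
  have hflat' : ∀ z : ℂ, ‖z‖ = 1 → (1 - c) * s ≤ ‖p.eval z‖ ∧ ‖p.eval z‖ ≤ (1 + c) * s := by
    intro z hz
    have := hflat z hz
    rwa [← pol_eval] at this
  set F : ℂ → ℂ := fun w => p.eval (z₀ * exp (I * w / ((n + 1 : ℕ) : ℂ))) with hF
  have hFd : Differentiable ℂ F := by
    have h1 : Differentiable ℂ (fun w : ℂ => z₀ * exp (I * w / ((n + 1 : ℕ) : ℂ))) := by
      fun_prop
    exact p.differentiable.comp h1
  have hnorm : ∀ w : ℂ, ‖z₀ * exp (I * w / ((n + 1 : ℕ) : ℂ))‖ = Real.exp (-(w.im / ((n + 1 : ℕ) : ℝ))) := by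
    intro w
    rw [norm_mul, hz₀, one_mul, Complex.norm_exp]
    congr 1
    rw [show I * w / ((n + 1 : ℕ) : ℂ) = I * w / (((n + 1 : ℕ) : ℝ) : ℂ) by norm_cast,
      Complex.div_ofReal_re]
    simp
    ring
  have hpow : ∀ w : ℂ, ‖w‖ < R → Real.exp (-R) < ‖z₀ * exp (I * w / ((n + 1 : ℕ) : ℂ))‖ ^ n ∧
      ‖z₀ * exp (I * w / ((n + 1 : ℕ) : ℂ))‖ ^ n < Real.exp R := by
    intro w hw
    rw [hnorm, ← Real.exp_nat_mul]
    have h1 : |w.im| < R := (Complex.abs_im_le_norm w).trans_lt hw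
    have h2 : |(n : ℝ) * -(w.im / ((n + 1 : ℕ) : ℝ))| < R := by
      rw [abs_mul, abs_neg, abs_div, abs_of_pos hNpos, abs_of_nonneg (by positivity : (0:ℝ) ≤ n)]
      rw [← mul_div_assoc, div_lt_iff₀ hNpos]
      push_cast
      nlinarith [abs_nonneg w.im, (by positivity : (0:ℝ) ≤ n)]
    rw [abs_lt] at h2
    exact ⟨Real.exp_lt_exp.mpr h2.1, Real.exp_lt_exp.mpr h2.2⟩
  have hexp0 : Real.exp (-R) * Real.exp R = 1 := by rw [← Real.exp_add]; simp
  have hexpR : 1 ≤ Real.exp R := Real.one_le_exp hR0.le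
  have hFne : ∀ w ∈ ball (0 : ℂ) R, F w ≠ 0 := by
    intro w hw h0
    have hw' : ‖w‖ < R := by simpa using hw
    obtain ⟨h1, h2⟩ := hpow w hw'
    have hexp1 := Real.exp_pos (-R)
    rcases zero_free hc0.le (by linarith) hflat h0 with h3 | h3
    · linarith
    · have : 3 * c * ‖z₀ * exp (I * w / ((n + 1 : ℕ) : ℂ))‖ ^ n ≤ 3 * (Real.exp (-R) / 4) * Real.exp R := by
        gcongr
      nlinarith
  have hF0 : F 0 = p.eval z₀ := by simp [hF]
  obtain ⟨hl0, hu0⟩ := hflat' z₀ hz₀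
  have hgrow : ∀ w ∈ ball (0 : ℂ) R, ‖F w‖ ≤ Real.exp (R + 1) * ‖F 0‖ := by
    intro w hw
    have hw' : ‖w‖ < R := by simpa using hw
    obtain ⟨h1, h2⟩ := hpow w hw'
    have h3 : ‖F w‖ ≤ (1 + c) * s * Real.exp R := by
      rcases le_total ‖z₀ * exp (I * w / ((n + 1 : ℕ) : ℂ))‖ 1 with h | h
      · have := poly_bound_in (p := p) (fun z hz => (hflat' z hz).2) h
        refine this.trans ?_
        have : 0 ≤ (1 + c) * s := by positivity
        nlinarith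
      · have := poly_bound_out (p := p) (pol_natDegree a n) (fun z hz => (hflat' z hz).2) h
        refine this.trans ?_
        gcongr
    rw [hF0]
    have h4 : Real.exp (R + 1) = Real.exp R * Real.exp 1 := Real.exp_add _ _
    have h5 : (2 : ℝ) ≤ Real.exp 1 := by
      have := Real.add_one_le_exp (1 : ℝ); linarith
    calc ‖F w‖ ≤ (1 + c) * s * Real.exp R := h3
      _ ≤ (5 / 4) * s * Real.exp R := by gcongr; linarith
      _ ≤ Real.exp R * 2 * ((3 / 4) * s) := by nlinarith [mul_pos hs0 (Real.exp_pos R)]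
      _ ≤ Real.exp R * Real.exp 1 * ((1 - c) * s) := by
        gcongr
        linarith
      _ ≤ Real.exp (R + 1) * ‖p.eval z₀‖ := by rw [h4]; gcongr
  obtain ⟨g, h, hg8, hgh⟩ := log_linear hR1 hFd.differentiableOn hFne hgrow
  refine ⟨g.im, (Complex.abs_im_le_norm g).trans hg8, fun t ht => ?_⟩
  have htn : ‖(t : ℂ)‖ ≤ T := by rw [Complex.norm_real]; exact ht
  obtain ⟨e1, e2⟩ := hgh t (by linarith)
  have e3 : ‖h t - g * t‖ ≤ η / 4 := by
    refine e2.trans (le_trans ?_ hRη)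
    gcongr
  have e4 : |(h t).im - g.im * t| ≤ η / 4 := by
    have := (Complex.abs_im_le_norm (h t - g * t)).trans e3
    simpa using this
  have hFt : (pol a (n + 1)).eval (z₀ * exp (I * t / ((n + 1 : ℕ) : ℂ))) = F t := rfl
  rw [hFt, ← hF0]
  have hnt : ‖z₀ * exp (I * t / ((n + 1 : ℕ) : ℂ))‖ = 1 := by rw [hnorm]; simp
  obtain ⟨hlt, hut⟩ := hflat' _ hnt
  have hFt2 : F t = (F 0 * exp (I * ((h t).im : ℝ))) * ((Real.exp (h t).re : ℝ) : ℂ) := by
    rw [e1, mul_assoc]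
    congr 1
    conv_lhs => rw [← Complex.re_add_im (h t)]
    rw [exp_add, Complex.ofReal_exp, mul_comm, mul_comm I]
  have hone : ‖exp (I * ((h t).im : ℂ))‖ = 1 := by rw [Complex.norm_exp]; simp
  have hFtn : ‖F t‖ = ‖F 0‖ * Real.exp (h t).re := by
    rw [hFt2, norm_mul, norm_mul, hone, mul_one, Complex.norm_real, Real.norm_eq_abs,
      abs_of_pos (Real.exp_pos _)]
  have t1 : ‖F t - F 0 * exp (I * ((h t).im : ℝ))‖ ≤ 2 * c * s := by
    have : F t - F 0 * exp (I * ((h t).im : ℝ)) =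
        (F 0 * exp (I * ((h t).im : ℝ))) * ((Real.exp (h t).re - 1 : ℝ) : ℂ) := by
      rw [hFt2]; push_cast; ring
    rw [this, norm_mul, norm_mul, hone, mul_one, Complex.norm_real, Real.norm_eq_abs]
    have h6 : ‖F 0‖ * |Real.exp (h t).re - 1| = |‖F t‖ - ‖F 0‖| := by
      rw [hFtn, ← abs_of_nonneg (norm_nonneg (F 0)), ← abs_mul, abs_of_nonneg (norm_nonneg (F 0))]
      congr 1
      ring
    rw [h6, hF0]
    have : F t = p.eval (z₀ * exp (I * t / ((n + 1 : ℕ) : ℂ))) := rfl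
    rw [this, abs_le]
    constructor <;> nlinarith
  have t2 : ‖F 0 * exp (I * ((h t).im : ℝ)) - exp (I * (g.im * t : ℝ)) * F 0‖ ≤
      (1 + c) * s * (η / 4) := by
    have : F 0 * exp (I * ((h t).im : ℝ)) - exp (I * (g.im * t : ℝ)) * F 0 =
        F 0 * (exp (I * ((h t).im : ℝ)) - exp (I * (g.im * t : ℝ))) := by ring
    rw [this, norm_mul]
    have h7 := (norm_exp_sub_exp_le (h t).im (g.im * t)).trans e4
    rw [hF0]
    gcongr
  calc ‖F t - exp (I * (g.im * t : ℝ)) * F 0‖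
      ≤ ‖F t - F 0 * exp (I * ((h t).im : ℝ))‖ +
        ‖F 0 * exp (I * ((h t).im : ℝ)) - exp (I * (g.im * t : ℝ)) * F 0‖ := by
        refine le_trans (le_of_eq ?_) (norm_add_le _ _)
        congr 1
        ring
    _ ≤ 2 * c * s + (1 + c) * s * (η / 4) := add_le_add t1 t2
    _ ≤ η * s := by nlinarith [mul_pos hs0 hη]

end Vale.Agent.H12.Flat
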