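import Vale.Agent.H12.Flat.Approx

open Complex

namespace Vale.Agent.H12.Flat

theorem segment_L4 {δ : ℝ} (hδ : 0 < δ) : ∃ c : ℝ, 0 < c ∧ ∃ N₀ : ℕ, 1 ≤ N₀ ∧ ∀ N : ℕ, N₀ ≤ N →
    ∀ a : ℕ → ℂ, (∀ k, ‖a k‖ = 1) → IsFlat c N a → ∀ m n : ℕ, m ≤ n → n ≤ N →
      2 * Real.pi * (((n : ℝ) - m) * N - δ * N ^ 2) ≤
        ∫ θ in (0 : ℝ)..(2 * Real.pi), ‖∑ k ∈ Finset.Ico m n, a k * exp (I * θ) ^ k‖ ^ 4 := by
  obtain ⟨L, hL⟩ := exists_nat_ge (24 / δ)
  have hL0 : (0 : ℝ) < L := lt_of_lt_of_le (by positivity) hL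
  have hLδ : 6 / (L : ℝ) ≤ δ / 4 := by
    rw [div_le_iff₀ hL0]
    rw [div_le_iff₀ hδ] at hL
    linarith
  obtain ⟨N₁, hN₁⟩ := exists_nat_ge (8 / δ)
  have hδ4 : 0 < δ / 4 := by positivity
  have hcore : ∀ ij : ℕ × ℕ, ∃ c : ℝ, 0 < c ∧ ∀ N : ℕ, 1 ≤ N → ∀ a : ℕ → ℂ, (∀ k, ‖a k‖ = 1) →
      IsFlat c N a → ∀ J : ℕ → Prop, ∀ [DecidablePred J],
      (∀ k < N, ¬ J k → plateau ((ij.1 : ℝ) / L) (min ((ij.2 : ℝ) / L) 1) (1 / L)
        (Int.fract ((k : ℝ) / N)) = 0) →
      2 * Real.pi * ((N : ℝ) * (∑ k ∈ Finset.range N, plateau ((ij.1 : ℝ) / L)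
        (min ((ij.2 : ℝ) / L) 1) (1 / L) (Int.fract ((k : ℝ) / N)) - δ / 4 * N)) ≤
        ∫ θ in (0 : ℝ)..(2 * Real.pi), ‖trig (fun k => if J k then a k else 0) N θ‖ ^ 4 := by
    intro ij
    have := core (f := fun x => plateau ((ij.1 : ℝ) / L) (min ((ij.2 : ℝ) / L) 1) (1 / L)
      (Int.fract x)) (fun x => plateau_nonneg _ _ _ _) (fun x => plateau_le_one _ _ _ _)
      (fun ε hε => approx_plateau (by positivity) (min_le_right _ _) (by positivity) hε) hδ4
    exact this
  choose cc hcc0 hcc using hcore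
  set S : Finset (ℕ × ℕ) := Finset.range (L + 1) ×ˢ Finset.range (L + 1) with hS
  have hSne : S.Nonempty := ⟨(0, 0), by simp [hS]⟩
  refine ⟨S.inf' hSne cc, ?_, max 1 N₁, le_max_left _ _, ?_⟩
  · rw [Finset.lt_inf'_iff]
    exact fun ij _ => hcc0 ij
  intro N hN a ha hflat m n hmn hnN
  have hN1 : 1 ≤ N := (le_max_left _ _).trans hN
  have hNpos : (0 : ℝ) < N := by exact_mod_cast hN1
  have hN2 : 2 ≤ δ / 4 * N := by
    have h1 : (N₁ : ℝ) ≤ N := by exact_mod_cast (le_max_right 1 N₁).trans hN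
    rw [div_le_iff₀ hδ] at hN₁
    nlinarith
  have hmN : (m : ℝ) ≤ N := by exact_mod_cast hmn.trans hnN
  have hnN' : (n : ℝ) ≤ N := by exact_mod_cast hnN
  set i : ℕ := ⌈(m : ℝ) * L / N⌉₊ with hi
  set j : ℕ := ⌊(n : ℝ) * L / N⌋₊ with hj
  have hi1 : (m : ℝ) * L / N ≤ i := Nat.le_ceil _
  have hi2 : (i : ℝ) < m * L / N + 1 := Nat.ceil_lt_add_one (by positivity)
  have hj1 : (j : ℝ) ≤ n * L / N := Nat.floor_le (by positivity)
  have hj2 : (n : ℝ) * L / N < j + 1 := Nat.lt_floor_add_one _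
  have hiL : i ≤ L := by
    rw [hi]
    apply Nat.ceil_le.mpr
    rw [div_le_iff₀ hNpos]
    nlinarith
  have hjL' : (j : ℝ) ≤ L := by
    refine hj1.trans ?_
    rw [div_le_iff₀ hNpos]
    nlinarith
  have hjL : j ≤ L := by exact_mod_cast hjL'
  have hmem : (i, j) ∈ S := by
    simp only [hS, Finset.mem_product, Finset.mem_range]
    omega
  have hmin : min ((j : ℝ) / L) 1 = (j : ℝ) / L := min_eq_left (by rw [div_le_one hL0]; exact hjL')
  have e1 : (m : ℝ) / N ≤ (i : ℝ) / L := by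
    rw [div_le_div_iff₀ hNpos hL0]
    rw [div_le_iff₀ hNpos] at hi1
    exact hi1
  have e2 : (i : ℝ) / L ≤ m / N + 1 / L := by
    have h : (i : ℝ) / L ≤ (m * L / N + 1) / L := by gcongr
    refine h.trans (le_of_eq ?_)
    field_simp
  have e3 : (j : ℝ) / L ≤ (n : ℝ) / N := by
    rw [div_le_div_iff₀ hL0 hNpos]
    rw [le_div_iff₀ hNpos] at hj1
    exact hj1
  have e4 : (n : ℝ) / N - 1 / L ≤ (j : ℝ) / L := by
    have h : (n * L / N - 1) / L ≤ (j : ℝ) / L := by
      have : (n : ℝ) * L / N - 1 ≤ j := by linarith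
      gcongr
    refine le_trans (le_of_eq ?_) h
    field_simp
  have hfr : ∀ k < N, Int.fract ((k : ℝ) / N) = (k : ℝ) / N := by
    intro k hk
    rw [Int.fract_eq_self]
    refine ⟨by positivity, ?_⟩
    rw [div_lt_one hNpos]
    exact_mod_cast hk
  have main := hcc (i, j) N hN1 a ha (hflat.mono (Finset.inf'_le cc hmem))
    (fun k => m ≤ k ∧ k < n) ?_
  · have htrig : ∀ θ : ℝ, trig (fun k => if m ≤ k ∧ k < n then a k else 0) N θ =
        ∑ k ∈ Finset.Ico m n, a k * exp (I * θ) ^ k := by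
      intro θ
      unfold trig
      simp_rw [ite_mul, zero_mul]
      rw [← Finset.sum_filter]
      refine Finset.sum_congr ?_ fun _ _ => rfl
      ext k
      simp only [Finset.mem_filter, Finset.mem_range, Finset.mem_Ico]
      omega
    simp_rw [htrig] at main
    refine le_trans ?_ main
    apply mul_le_mul_of_nonneg_left _ Real.two_pi_pos.le
    -- lower bound of the sum
    set t : ℕ := ⌈3 * (N : ℝ) / L⌉₊ with ht
    have ht1 : 3 * (N : ℝ) / L ≤ t := Nat.le_ceil _
    have ht2 : (t : ℝ) < 3 * N / L + 1 := Nat.ceil_lt_add_one (by positivity)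
    have hsub : Finset.Ico (m + t) (n - t) ⊆ Finset.range N := by
      intro k hk
      rw [Finset.mem_Ico] at hk
      rw [Finset.mem_range]
      omega
    have hsum : ((n : ℝ) - m - 2 * t) ≤ ∑ k ∈ Finset.range N, plateau ((i : ℝ) / L)
        (min ((j : ℝ) / L) 1) (1 / L) (Int.fract ((k : ℝ) / N)) := by
      calc ((n : ℝ) - m - 2 * t) ≤ ((Finset.Ico (m + t) (n - t)).card : ℝ) := by
            rw [Nat.card_Ico]
            have : (n : ℤ) - m - 2 * t ≤ ((n - t - (m + t) : ℕ) : ℤ) := by omega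
            exact_mod_cast this
        _ = ∑ k ∈ Finset.Ico (m + t) (n - t), (1 : ℝ) := by simp
        _ = ∑ k ∈ Finset.Ico (m + t) (n - t), plateau ((i : ℝ) / L)
            (min ((j : ℝ) / L) 1) (1 / L) (Int.fract ((k : ℝ) / N)) := by
            refine Finset.sum_congr rfl fun k hk => ?_
            have hkN := Finset.mem_range.mp (hsub hk)
            rw [Finset.mem_Ico] at hk
            rw [hfr k hkN, hmin, plateau_one (by positivity)]
            · have h1 : ((m : ℝ) + t) / N ≤ k / N := by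
                have : ((m : ℝ) + t) ≤ k := by exact_mod_cast hk.1
                gcongr
              have h2 : 3 / (L : ℝ) ≤ t / N := by
                rw [div_le_div_iff₀ hL0 hNpos]
                rw [div_le_iff₀ hL0] at ht1
                exact ht1
              rw [add_div] at h1
              have h3 : 3 / (L : ℝ) = 3 * (1 / L) := by ring
              have h4 : 0 < 1 / (L : ℝ) := by positivity
              linarith
            · have h1 : (k : ℝ) / N ≤ ((n : ℝ) - t) / N := by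
                have : (k : ℝ) ≤ (n : ℝ) - t := by
                  have : k + t ≤ n := by omega
                  have : (k : ℝ) + t ≤ n := by exact_mod_cast this
                  linarith
                gcongr
              have h2 : 3 / (L : ℝ) ≤ t / N := by
                rw [div_le_div_iff₀ hL0 hNpos]
                rw [div_le_iff₀ hL0] at ht1
                exact ht1
              rw [sub_div] at h1
              have h3 : 3 / (L : ℝ) = 3 * (1 / L) := by ring
              have h4 : 0 < 1 / (L : ℝ) := by positivity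
              linarith
        _ ≤ _ := Finset.sum_le_sum_of_subset_of_nonneg hsub
            (fun k _ _ => plateau_nonneg _ _ _ _)
    have h6 : 6 * (N : ℝ) / L ≤ δ / 4 * N := by
      calc 6 * (N : ℝ) / L = 6 / L * N := by ring
        _ ≤ _ := by gcongr
    have h7 : (2 : ℝ) * t ≤ 6 * N / L + 2 := by
      have : 6 * (N : ℝ) / L = 2 * (3 * N / L) := by ring
      linarith
    have h8 : (n : ℝ) - m - δ * N ≤ ∑ k ∈ Finset.range N, plateau ((i : ℝ) / L)
        (min ((j : ℝ) / L) 1) (1 / L) (Int.fract ((k : ℝ) / N)) - δ / 4 * N := by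
      nlinarith
    calc ((n : ℝ) - m) * N - δ * N ^ 2 = N * ((n : ℝ) - m - δ * N) := by ring
      _ ≤ _ := mul_le_mul_of_nonneg_left h8 hNpos.le
  · intro k hk hJ
    rw [hfr k hk]
    apply plateau_zero (by positivity)
    rw [hmin]
    by_cases h1 : m ≤ k
    · right
      have h2 : n ≤ k := by
        by_contra h
        exact hJ ⟨h1, by omega⟩
      have : (n : ℝ) / N ≤ k / N := by
        have : (n : ℝ) ≤ k := by exact_mod_cast h2
        gcongr
      exact e3.trans this
    · left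
      have : (k : ℝ) / N ≤ m / N := by
        have : (k : ℝ) ≤ m := by exact_mod_cast (by omega : k ≤ m)
        gcongr
      exact this.trans e1

end Vale.Agent.H12.Flat
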